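import Vale.Agent.P245.Defs
import Vale.Agent.P254.Orlicz.Symm

/-! # P245: reduction to the orthant -/

open MeasureTheory Set
open Vale.Agent.P254.Sym (orth)
open scoped ENNReal

namespace Vale.Agent.P245

noncomputable section

variable {n : ℕ} {ρ : (Fin n → ℝ) → ℝ}

theorem isProbability_law (hρ : GoodDensity ρ) : IsProbabilityMeasure (law ρ) :=
  ⟨by rw [law, withDensity_apply _ MeasurableSet.univ, setLIntegral_univ, hρ.mass]⟩

lemma volume_preserving_refl (i : Fin n) : MeasurePreserving (refl i) volume volume := by
  have h : refl i = fun (x : Fin n → ℝ) j => (if j = i then (fun t : ℝ => -t) else id) (x j) := by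
    funext x j
    rcases eq_or_ne j i with rfl | hj
    · simp [refl]
    · simp [refl, hj]
  rw [h]
  refine volume_preserving_pi (f := fun j => if j = i then (fun t : ℝ => -t) else id) fun j => ?_
  split_ifs
  · exact Measure.measurePreserving_neg volume
  · exact MeasurePreserving.id volume

theorem measurePreserving_refl (hρ : GoodDensity ρ) (i : Fin n) :
    MeasurePreserving (refl i) (law ρ) (law ρ) := by
  have hv := volume_preserving_refl i
  refine ⟨hv.measurable, Measure.ext fun s hs => ?_⟩
  rw [Measure.map_apply hv.measurable hs, law, withDensity_apply _ (hs.preimage hv.measurable),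
    withDensity_apply _ hs, ← lintegral_indicator (hs.preimage hv.measurable),
    ← lintegral_indicator hs]
  conv_rhs => rw [← hv.lintegral_comp ((hρ.meas.ennreal_ofReal).indicator hs)]
  congr 1
  funext x
  by_cases hx : refl i x ∈ s <;> simp [hx, hρ.even]

/-- A function even in every coordinate depends only on the absolute values. -/
lemma even_abs {β : Type*} {F : (Fin n → ℝ) → β} (heven : ∀ i x, F (refl i x) = F x)
    (x : Fin n → ℝ) : F (fun j => |x j|) = F x := by
  have key : ∀ s : Finset (Fin n), F (s.piecewise (fun j => |x j|) x) = F x := by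
    intro s
    induction s using Finset.induction with
    | empty => simp
    | @insert i t hit ih =>
      rw [Finset.piecewise_insert]
      set y := t.piecewise (fun j => |x j|) x
      have hy : y i = x i := Finset.piecewise_eq_of_notMem _ _ _ hit
      rcases le_or_gt 0 (x i) with hx | hx
      · rw [abs_of_nonneg hx, ← hy, Function.update_eq_self]
        exact ih
      · rw [abs_of_neg hx, ← hy, ← ih]
        exact heven i y
  simpa using key Finset.univ

/-- A function even in every coordinate integrates as on the orthant. -/
theorem lintegral_law_even (hρ : GoodDensity ρ) {F : (Fin n → ℝ) → ℝ≥0∞} (hF : Measurable F)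
    (heven : ∀ i x, F (refl i x) = F x) :
    ∫⁻ x, F x ∂law ρ = (2 : ℝ≥0∞) ^ n * ∫⁻ x, ENNReal.ofReal (ρ x) * F x ∂orth n := by
  have hG : Measurable fun x => ENNReal.ofReal (ρ x) * F x := hρ.meas.ennreal_ofReal.mul hF
  have hm : Measurable fun (y : Fin n → ℝ) j => |y j| :=
    measurable_pi_lambda _ fun j => continuous_abs.measurable.comp (measurable_pi_apply j)
  have horth : (volume : Measure (Fin n → ℝ)).restrict (univ.pi fun _ : Fin n => Ici (0:ℝ))
      = orth n := by
    rw [orth, volume_pi, Measure.restrict_pi_pi]
    congr 1
    funext j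
    exact Measure.restrict_congr_set Ioi_ae_eq_Ici.symm
  rw [law, lintegral_withDensity_eq_lintegral_mul _ hρ.meas.ennreal_ofReal hF]
  simp only [Pi.mul_apply]
  calc ∫⁻ x, ENNReal.ofReal (ρ x) * F x
      = ∫⁻ x : Fin n → ℝ, ENNReal.ofReal (ρ fun j => |x j|) * F fun j => |x j| :=
        lintegral_congr fun x => by rw [even_abs hρ.even, even_abs heven]
    _ = ∫⁻ x, ENNReal.ofReal (ρ x) * F x
          ∂(volume : Measure (Fin n → ℝ)).map (fun y j => |y j|) :=
        (lintegral_map hG hm).symm
    _ = _ := by
        rw [Vale.Agent.P254.Orlicz.map_abs_pi, lintegral_smul_measure, horth, smul_eq_mul]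

/-- Shrinking one coordinate increases the density. -/
lemma density_anti_one (hρ : GoodDensity ρ) (i : Fin n) (x : Fin n → ℝ) {c : ℝ}
    (hc : |c| ≤ |x i|) : ρ x ≤ ρ (Function.update x i c) := by
  rcases eq_or_ne (x i) 0 with hx | hx
  · rw [hx, abs_zero, abs_nonpos_iff] at hc
    rw [hc, ← hx, Function.update_eq_self]
  have hq : |c / x i| ≤ 1 := by
    rw [abs_div, div_le_one (abs_pos.2 hx)]
    exact hc
  obtain ⟨hq1, hq2⟩ := abs_le.1 hq
  rcases hq1.eq_or_lt with he | hlt1
  · have : c = -x i := by field_simp at he; linarith
    rw [this]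
    exact (hρ.even i x).ge
  rcases hq2.eq_or_lt with he | hlt2
  · have : c = x i := by field_simp at he; linarith
    rw [this, Function.update_eq_self]
  have h := hρ.logconcave x (refl i x) ((1 + c / x i) / 2) ((1 - c / x i) / 2) (by linarith)
    (by linarith) (by ring)
  rw [hρ.even, ← Real.rpow_add' (hρ.nonneg x) (by ring_nf; norm_num),
    show (1 + c / x i) / 2 + (1 - c / x i) / 2 = (1:ℝ) by ring, Real.rpow_one] at h
  refine h.trans (le_of_eq (congrArg ρ ?_))
  funext j
  rcases eq_or_ne j i with rfl | hj
  · simp only [refl, Pi.add_apply, Pi.smul_apply, smul_eq_mul, Function.update_self]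
    field_simp
    ring
  · simp only [refl, Pi.add_apply, Pi.smul_apply, smul_eq_mul, Function.update_of_ne hj]
    ring

/-- The density decreases in the absolute value of each coordinate. -/
theorem density_anti (hρ : GoodDensity ρ) {z x : Fin n → ℝ} (h : ∀ i, |z i| ≤ |x i|) :
    ρ x ≤ ρ z := by
  have key : ∀ s : Finset (Fin n), ρ x ≤ ρ (s.piecewise z x) := by
    intro s
    induction s using Finset.induction with
    | empty => simp
    | @insert i t hit ih =>
      rw [Finset.piecewise_insert]
      exact ih.trans (density_anti_one hρ i _ (by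
        rw [Finset.piecewise_eq_of_notMem _ _ _ hit]; exact h i))
  simpa using key Finset.univ

end

end Vale.Agent.P245
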