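import Vale.Agent.P245.Pointwise
import Vale.Agent.P245.Abs

/-!
# The logarithmic Sobolev inequality for even functions, up to the large coordinates
-/

open MeasureTheory Filter Topology
open Vale.Agent.P254.Sym (orth)
open scoped ENNReal

namespace Vale.Agent.P245

noncomputable section

variable {n : ℕ} {ρ : (Fin n → ℝ) → ℝ}

theorem excess_nonneg (R : ℝ) (x : Fin n → ℝ) : 0 ≤ excess R x :=
  Finset.sum_nonneg fun i _ => by split_ifs <;> positivity

theorem measurable_excess (R : ℝ) : Measurable fun x : Fin n → ℝ => excess R x :=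
  Finset.measurable_sum _ fun i _ =>
    Measurable.ite (measurableSet_lt measurable_const (measurable_pi_apply i).norm)
      ((measurable_pi_apply i).pow_const 2) measurable_const

theorem excess_refl (R : ℝ) (i : Fin n) (x : Fin n → ℝ) : excess R (refl i x) = excess R x := by
  refine Finset.sum_congr rfl fun j _ => ?_
  by_cases h : j = i
  · subst h
    simp [refl]
  · simp [refl, h]

theorem excess_pos (R : ℝ) {x : Fin n → ℝ} (hx : ∀ i, 0 < x i) :
    excess R x = ∑ i, exc R (x i) :=
  Finset.sum_congr rfl fun i _ => by rw [exc, abs_of_pos (hx i)]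

/-- The Prekopa-Leindler step at a fixed weight. -/
theorem core_pointwise (hρ : GoodDensity ρ) {R K θ s : ℝ} (hR : 0 < R) (hK : 0 ≤ K)
    (hθ : 0 < θ) (hs : 0 < s) (hθs : θ + s = 1) (hs4 : s ≤ 1 / 4)
    (hsK : 256 * R ^ 2 * K * s ≤ 1) {G : (Fin n → ℝ) → ℝ}
    (htay : ∀ x z, G x ≤ G z + ∑ i, pd i G z * (x i - z i) + K * ∑ i, (x i - z i) ^ 2)
    {x y : Fin n → ℝ} (hx : ∀ i, 0 < x i) (hy : ∀ i, 0 < y i) :
    (ρ x * Real.exp ((G x - s / (8 * R ^ 2) * excess R x) / θ)) ^ θ
        * (ρ y * Real.exp (-(1 / (8 * R ^ 2) * excess R y))) ^ s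
      ≤ (∏ i, gain θ s (x i) (y i)) * (ρ (fun i => qmean θ s (x i) (y i))
          * Real.exp (G (fun i => qmean θ s (x i) (y i))
            + s * (16 * R ^ 2) * gradSq G (fun i => qmean θ s (x i) (y i)))) := by
  set z : Fin n → ℝ := fun i => qmean θ s (x i) (y i) with hz
  have hρz : ρ x ^ θ * ρ y ^ s ≤ ρ z := by
    refine (hρ.logconcave x y θ s hθ hs hθs).trans (density_anti hρ fun i => ?_)
    have h0 : 0 ≤ z i := by simp only [hz, qmean]; positivity
    have := hx i
    have := hy i
    simp only [Pi.add_apply, Pi.smul_apply, smul_eq_mul]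
    rw [abs_of_nonneg h0, abs_of_pos (by positivity)]
    exact qmean_le hθ hs hθs (hx i).le (hy i).le
  have hsum := Finset.sum_le_sum (s := (Finset.univ : Finset (Fin n))) fun i _ =>
    coord_bound (θ := θ) (s := s) hθ hs hθs (hx i) (hy i) hR hK hs4 hsK (pd i G z)
  simp only [Finset.sum_add_distrib, ← Finset.mul_sum] at hsum
  rw [← excess_pos R hx, ← excess_pos R hy] at hsum
  have hexp : G x - s / (8 * R ^ 2) * excess R x + -(s * (1 / (8 * R ^ 2) * excess R y))
      ≤ ∑ i, Real.log (gain θ s (x i) (y i)) + (G z + s * (16 * R ^ 2) * gradSq G z) := by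
    have h := htay x z
    simp only [gradSq]
    have e : s * (1 / (8 * R ^ 2) * excess R y) = s / (8 * R ^ 2) * excess R y := by ring
    linarith
  have hx0 := hρ.nonneg x
  have hy0 := hρ.nonneg y
  rw [Real.mul_rpow hx0 (Real.exp_pos _).le, Real.mul_rpow hy0 (Real.exp_pos _).le,
    ← Real.exp_mul, ← Real.exp_mul, div_mul_cancel₀ _ hθ.ne', neg_mul, mul_comm (_ * _) s]
  calc ρ x ^ θ * Real.exp (G x - s / (8 * R ^ 2) * excess R x)
        * (ρ y ^ s * Real.exp (-(s * (1 / (8 * R ^ 2) * excess R y))))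
      = (ρ x ^ θ * ρ y ^ s) * Real.exp (G x - s / (8 * R ^ 2) * excess R x
          + -(s * (1 / (8 * R ^ 2) * excess R y))) := by rw [Real.exp_add]; ring
    _ ≤ ρ z * Real.exp (∑ i, Real.log (gain θ s (x i) (y i))
          + (G z + s * (16 * R ^ 2) * gradSq G z)) := by
        refine mul_le_mul hρz (Real.exp_le_exp.2 hexp) (Real.exp_pos _).le (hρ.nonneg z)
    _ = _ := by
        rw [Real.exp_add, Real.exp_sum,
          Finset.prod_congr rfl fun i _ => Real.exp_log (gain_pos hθ hs (hx i) (hy i))]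
        ring

/-- Prekopa-Leindler in terms of the law. -/
theorem core_pl (hρ : GoodDensity ρ) {R K θ s : ℝ} (hR : 0 < R) (hK : 0 ≤ K)
    (hθ : 0 < θ) (hs : 0 < s) (hθs : θ + s = 1) (hs4 : s ≤ 1 / 4)
    (hsK : 256 * R ^ 2 * K * s ≤ 1) {G : (Fin n → ℝ) → ℝ} (hGm : Measurable G)
    (hGeven : ∀ i x, G (refl i x) = G x) (hSm : Measurable fun x => gradSq G x)
    (hSeven : ∀ i x, gradSq G (refl i x) = gradSq G x)
    (htay : ∀ x z, G x ≤ G z + ∑ i, pd i G z * (x i - z i) + K * ∑ i, (x i - z i) ^ 2) :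
    (∫⁻ x, ENNReal.ofReal (Real.exp ((G x - s / (8 * R ^ 2) * excess R x) / θ)) ∂law ρ) ^ θ
      * (∫⁻ x, ENNReal.ofReal (Real.exp (-(1 / (8 * R ^ 2) * excess R x))) ∂law ρ) ^ s
      ≤ ∫⁻ x, ENNReal.ofReal (Real.exp (G x + s * (16 * R ^ 2) * gradSq G x)) ∂law ρ := by
  have hE := measurable_excess (n := n) R
  have hm1 : Measurable fun x => ENNReal.ofReal
      (Real.exp ((G x - s / (8 * R ^ 2) * excess R x) / θ)) :=
    ((hGm.sub (hE.const_mul _)).div_const θ).exp.ennreal_ofReal
  have hm2 : Measurable fun x : Fin n → ℝ => ENNReal.ofReal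
      (Real.exp (-(1 / (8 * R ^ 2) * excess R x))) :=
    (hE.const_mul _).neg.exp.ennreal_ofReal
  have hm3 : Measurable fun x => ENNReal.ofReal
      (Real.exp (G x + s * (16 * R ^ 2) * gradSq G x)) :=
    (hGm.add (hSm.const_mul _)).exp.ennreal_ofReal
  rw [lintegral_law_even hρ hm1 fun i x => by simp only [hGeven i x, excess_refl],
    lintegral_law_even hρ hm2 fun i x => by simp only [excess_refl],
    lintegral_law_even hρ hm3 fun i x => by simp only [hGeven i x, hSeven i x],
    ENNReal.mul_rpow_of_nonneg _ _ hθ.le, ENNReal.mul_rpow_of_nonneg _ _ hs.le, mul_mul_mul_comm,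
    ← ENNReal.rpow_add θ s (pow_ne_zero _ (by simp)) (ENNReal.pow_ne_top (by simp)), hθs,
    ENNReal.rpow_one]
  gcongr
  have hρm := hρ.meas.ennreal_ofReal
  refine pl_sqrt hθ hs hθs (hρm.mul hm1) (hρm.mul hm2) (hρm.mul hm3) fun x y hx hy => ?_
  have h0 := hρ.nonneg
  rw [← ENNReal.ofReal_mul (h0 _), ← ENNReal.ofReal_mul (h0 _), ← ENNReal.ofReal_mul (h0 _),
    ENNReal.ofReal_rpow_of_nonneg (mul_nonneg (h0 _) (Real.exp_pos _).le) hθ.le,
    ENNReal.ofReal_rpow_of_nonneg (mul_nonneg (h0 _) (Real.exp_pos _).le) hs.le,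
    ← ENNReal.ofReal_mul (Real.rpow_nonneg (mul_nonneg (h0 _) (Real.exp_pos _).le) _),
    ← ENNReal.ofReal_mul (Finset.prod_nonneg fun i _ => (gain_pos hθ hs (hx i) (hy i)).le)]
  exact ENNReal.ofReal_le_ofReal (core_pointwise hρ hR hK hθ hs hθs hs4 hsK htay hx hy)

/-- A convexity bound for exponential integrals. -/
theorem exp_mean_le {μ : Measure (Fin n → ℝ)} [IsFiniteMeasure μ] {v u : (Fin n → ℝ) → ℝ}
    (hv : Integrable v μ) (hvu : Integrable (fun x => v x * u x) μ)
    (hve : Integrable (fun x => v x * Real.exp (u x)) μ) (h0 : ∀ x, 0 ≤ v x)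
    (hP : 0 < ∫ x, v x ∂μ) :
    (∫ x, v x ∂μ) * Real.exp ((∫ x, v x * u x ∂μ) / ∫ x, v x ∂μ)
      ≤ ∫ x, v x * Real.exp (u x) ∂μ := by
  set P := ∫ x, v x ∂μ with hPdef
  set c := (∫ x, v x * u x ∂μ) / P with hc
  have hle : ∀ x, Real.exp c * (v x * u x) + (Real.exp c * (1 - c)) * v x ≤ v x * Real.exp (u x) :=
    fun x => by
      have h := Real.add_one_le_exp (u x - c)
      have e : Real.exp c * Real.exp (u x - c) = Real.exp (u x) := by
        rw [← Real.exp_add]; ring_nf
      have := mul_le_mul_of_nonneg_left h (mul_nonneg (h0 x) (Real.exp_pos c).le)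
      rw [mul_assoc, mul_assoc, e] at this
      linarith
  have h := integral_mono (μ := μ) ((hvu.const_mul (Real.exp c)).add
    (hv.const_mul (Real.exp c * (1 - c)))) hve hle
  simp only [Pi.add_apply] at h
  rw [integral_add (hvu.const_mul _) (hv.const_mul _), integral_const_mul, integral_const_mul]
    at h
  have e : ∫ x, v x * u x ∂μ = c * P := by rw [hc, div_mul_cancel₀ _ hP.ne']
  rw [e, ← hPdef] at h
  linarith

/-- The functional inequality at a fixed weight. -/
theorem core_at (hρ : GoodDensity ρ) {R K B M s : ℝ} (hR : 0 < R) (hK : 0 ≤ K) (hs : 0 < s)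
    (hs4 : s ≤ 1 / 4) (hsK : 256 * R ^ 2 * K * s ≤ 1) (hint : Integrable (excess R) (law ρ))
    {G : (Fin n → ℝ) → ℝ} (hGm : Measurable G) (hGb : ∀ x, |G x| ≤ B)
    (hGeven : ∀ i x, G (refl i x) = G x) (hSm : Measurable fun x => gradSq G x)
    (hSeven : ∀ i x, gradSq G (refl i x) = gradSq G x) (hSb : ∀ x, gradSq G x ≤ M)
    (htay : ∀ x z, G x ≤ G z + ∑ i, pd i G z * (x i - z i) + K * ∑ i, (x i - z i) ^ 2) :
    ent (law ρ) (fun x => Real.exp (G x)) ≤
      Real.exp (s * (16 * R ^ 2 * M)) * (16 * R ^ 2 * ∫ x, gradSq G x * Real.exp (G x) ∂law ρ)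
      + 1 / (8 * R ^ 2) * ((∫ x, excess R x * Real.exp (G x) ∂law ρ)
          + (∫ x, Real.exp (G x) ∂law ρ) * ∫ x, excess R x ∂law ρ) := by
  haveI := isProbability_law hρ
  obtain ⟨θ, hθ, hθs⟩ : ∃ θ : ℝ, 0 < θ ∧ θ + s = 1 := ⟨1 - s, by linarith, by linarith⟩
  set κ : ℝ := 1 / (8 * R ^ 2) with hκ
  have hκ0 : 0 ≤ κ := by rw [hκ]; positivity
  have hE := measurable_excess (n := n) R
  have hE0 := fun x => excess_nonneg (n := n) R x
  have hS0 : ∀ x, 0 ≤ gradSq G x := fun x => Finset.sum_nonneg fun i _ => sq_nonneg _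
  have hbd : ∀ {F : (Fin n → ℝ) → ℝ} {c : ℝ}, Measurable F → (∀ x, |F x| ≤ c) →
      Integrable F (law ρ) := fun {F c} hF hc =>
    Integrable.of_bound hF.aestronglyMeasurable c
      (Eventually.of_forall fun x => by rw [Real.norm_eq_abs]; exact hc x)
  have hem : Measurable fun x => Real.exp (G x) := hGm.exp
  have heb : ∀ x, Real.exp (G x) ≤ Real.exp B := fun x => Real.exp_le_exp.2 (le_of_abs_le (hGb x))
  have hv : Integrable (fun x => Real.exp (G x)) (law ρ) :=
    hbd (c := Real.exp B) hem fun x => by rw [abs_of_pos (Real.exp_pos _)]; exact heb x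
  have hvG : Integrable (fun x => Real.exp (G x) * G x) (law ρ) :=
    hbd (c := Real.exp B * B) (hem.mul hGm) fun x => by
      rw [abs_mul, abs_of_pos (Real.exp_pos _)]
      exact mul_le_mul (heb x) (hGb x) (abs_nonneg _) (Real.exp_pos _).le
  have hvE : Integrable (fun x => Real.exp (G x) * excess R x) (law ρ) :=
    hint.bdd_mul hem.aestronglyMeasurable (c := Real.exp B)
      (Eventually.of_forall fun x => by
        rw [Real.norm_eq_abs, abs_of_pos (Real.exp_pos _)]; exact heb x)
  set P := ∫ x, Real.exp (G x) ∂law ρ with hP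
  have hPpos : 0 < P := integral_exp_pos hv
  set u : (Fin n → ℝ) → ℝ := fun x => s / θ * (G x - κ * excess R x) with hu
  have hu_eq : ∀ x, (G x - s / (8 * R ^ 2) * excess R x) / θ = G x + u x := fun x => by
    have hθ' : θ = 1 - s := by linarith
    simp only [hu, hκ]
    field_simp
    rw [hθ']
    ring
  have hub : ∀ x, G x + u x ≤ B / θ := fun x => by
    rw [← hu_eq, div_le_div_iff_of_pos_right hθ]
    have h1 : 0 ≤ s / (8 * R ^ 2) * excess R x := mul_nonneg (by positivity) (hE0 x)
    linarith [le_of_abs_le (hGb x)]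
  have hu' : Measurable u := (hGm.sub (hE.const_mul κ)).const_mul (s / θ)
  have hvu : Integrable (fun x => Real.exp (G x) * u x) (law ρ) := by
    refine ((hvG.sub (hvE.const_mul κ)).const_mul (s / θ)).congr (Eventually.of_forall fun x => ?_)
    simp only [hu, Pi.sub_apply]
    ring
  have hve : Integrable (fun x => Real.exp (G x) * Real.exp (u x)) (law ρ) :=
    hbd (c := Real.exp (B / θ)) (hem.mul hu'.exp) fun x => by
      rw [← Real.exp_add, abs_of_pos (Real.exp_pos _)]
      exact Real.exp_le_exp.2 (hub x)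
  set N := ∫ x, Real.exp (G x) * (G x - κ * excess R x) ∂law ρ with hN
  have hNu : ∫ x, Real.exp (G x) * u x ∂law ρ = s / θ * N := by
    rw [hN, ← integral_const_mul]
    congr 1
    funext x
    simp only [hu]
    ring
  set M1 := ∫ x, excess R x ∂law ρ with hM1
  have hA := exp_mean_le hv hvu hve (fun x => (Real.exp_pos _).le) hPpos
  rw [hNu, ← hP] at hA
  have hw : Integrable (fun x => Real.exp (-(κ * excess R x))) (law ρ) :=
    hbd (c := 1) (hE.const_mul κ).neg.exp fun x => by
      rw [abs_of_pos (Real.exp_pos _), Real.exp_le_one_iff, neg_nonpos]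
      exact mul_nonneg hκ0 (hE0 x)
  have hB := exp_mean_le (μ := law ρ) (v := fun _ => (1 : ℝ))
    (u := fun x => -(κ * excess R x)) (integrable_const _)
    (by simpa using (hint.const_mul κ).neg) (by simpa using hw) (fun _ => zero_le_one)
    (by simp)
  simp only [one_mul, integral_const, probReal_univ, smul_eq_mul, mul_one, div_one,
    integral_neg, integral_const_mul] at hB
  rw [← hM1] at hB
  set D := 16 * R ^ 2 * M with hD
  set E := ∫ x, gradSq G x * Real.exp (G x) ∂law ρ with hEdef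
  have hE_int : Integrable (fun x => gradSq G x * Real.exp (G x)) (law ρ) :=
    hbd (c := M * Real.exp B) (hSm.mul hem) fun x => by
      rw [abs_mul, abs_of_pos (Real.exp_pos _), abs_of_nonneg (hS0 x)]
      exact mul_le_mul (hSb x) (heb x) (Real.exp_pos _).le ((hS0 x).trans (hSb x))
  have hC_int : Integrable (fun x => Real.exp (G x + s * (16 * R ^ 2) * gradSq G x)) (law ρ) :=
    hbd (c := Real.exp (B + s * D)) (hGm.add (hSm.const_mul _)).exp fun x => by
      rw [abs_of_pos (Real.exp_pos _)]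
      refine Real.exp_le_exp.2 (add_le_add (le_of_abs_le (hGb x)) ?_)
      rw [hD, mul_assoc]
      exact mul_le_mul_of_nonneg_left (mul_le_mul_of_nonneg_left (hSb x) (by positivity)) hs.le
  have hCle : ∫ x, Real.exp (G x + s * (16 * R ^ 2) * gradSq G x) ∂law ρ
      ≤ P + s * Real.exp (s * D) * (16 * R ^ 2) * E := by
    calc ∫ x, Real.exp (G x + s * (16 * R ^ 2) * gradSq G x) ∂law ρ
        ≤ ∫ x, (Real.exp (G x) + s * Real.exp (s * D) * (16 * R ^ 2)
            * (gradSq G x * Real.exp (G x))) ∂law ρ := by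
          refine integral_mono hC_int (hv.add (hE_int.const_mul _)) fun x => ?_
          set v := s * (16 * R ^ 2) * gradSq G x with hvdef
          have hv0 : 0 ≤ v := by
            have := hS0 x
            positivity
          have hvD : v ≤ s * D := by
            rw [hvdef, hD, mul_assoc]
            exact mul_le_mul_of_nonneg_left (mul_le_mul_of_nonneg_left (hSb x) (by positivity)) hs.le
          have h1 : Real.exp v ≤ 1 + v * Real.exp v := by
            have h' := mul_le_mul_of_nonneg_left (Real.one_sub_le_exp_neg v) (Real.exp_pos v).le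
            rw [← Real.exp_add, add_neg_cancel, Real.exp_zero] at h'
            linarith
          have h2 : v * Real.exp v ≤ v * Real.exp (s * D) :=
            mul_le_mul_of_nonneg_left (Real.exp_le_exp.2 hvD) hv0
          show Real.exp (G x + v) ≤ _
          rw [Real.exp_add]
          calc Real.exp (G x) * Real.exp v ≤ Real.exp (G x) * (1 + v * Real.exp (s * D)) :=
                mul_le_mul_of_nonneg_left (h1.trans (by linarith)) (Real.exp_pos _).le
            _ = _ := by rw [hvdef]; ring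
      _ = _ := by rw [integral_add hv (hE_int.const_mul _), integral_const_mul]
  have key := core_pl hρ hR hK hθ hs hθs hs4 hsK hGm hGeven hSm hSeven htay
  simp only [hu_eq, Real.exp_add (G _) (u _)] at key
  rw [← ofReal_integral_eq_lintegral_ofReal hve
      (Eventually.of_forall fun x => mul_nonneg (Real.exp_pos _).le (Real.exp_pos _).le),
    ← ofReal_integral_eq_lintegral_ofReal hw (Eventually.of_forall fun x => (Real.exp_pos _).le),
    ← ofReal_integral_eq_lintegral_ofReal hC_int
      (Eventually.of_forall fun x => (Real.exp_pos _).le)] at key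
  have hA0 : 0 < ∫ x, Real.exp (G x) * Real.exp (u x) ∂law ρ :=
    lt_of_lt_of_le (by positivity) hA
  have hB0 : 0 < ∫ x, Real.exp (-(κ * excess R x)) ∂law ρ := lt_of_lt_of_le (Real.exp_pos _) hB
  rw [ENNReal.ofReal_rpow_of_pos hA0, ENNReal.ofReal_rpow_of_pos hB0,
    ← ENNReal.ofReal_mul (Real.rpow_nonneg hA0.le _),
    ENNReal.ofReal_le_ofReal_iff (integral_nonneg fun x => (Real.exp_pos _).le)] at key
  set Q := s * Real.exp (s * D) * (16 * R ^ 2) * E with hQ
  have hQ0 : 0 ≤ Q := by
    have : 0 ≤ E := integral_nonneg fun x => mul_nonneg (hS0 x) (Real.exp_pos _).le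
    positivity
  have hlow : (P * Real.exp (s / θ * N / P)) ^ θ * Real.exp (-(κ * M1)) ^ s ≤ P + Q :=
    ((mul_le_mul (Real.rpow_le_rpow (by positivity) hA hθ.le)
      (Real.rpow_le_rpow (Real.exp_pos _).le hB hs.le) (by positivity)
      (Real.rpow_nonneg hA0.le _)).trans key).trans hCle
  have hlog := Real.log_le_log (by positivity) hlow
  rw [Real.log_mul (by positivity) (by positivity), Real.log_rpow (by positivity),
    Real.log_rpow (Real.exp_pos _), Real.log_mul hPpos.ne' (Real.exp_pos _).ne', Real.log_exp,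
    Real.log_exp] at hlog
  have hup : Real.log (P + Q) ≤ Real.log P + Q / P := by
    have h := Real.log_le_sub_one_of_pos (div_pos (by linarith : 0 < P + Q) hPpos)
    rw [Real.log_div (by linarith) hPpos.ne', add_div, div_self hPpos.ne'] at h
    linarith
  have hmain : s * (N - P * Real.log P - κ * M1 * P) ≤ Q := by
    have h2 := mul_le_mul_of_nonneg_left (hlog.trans hup) hPpos.le
    have e1 : P * (θ * (Real.log P + s / θ * N / P) + s * -(κ * M1))
        = θ * (P * Real.log P) + s * N - s * (κ * M1 * P) := by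
      field_simp
      ring
    have e2 : P * (Real.log P + Q / P) = P * Real.log P + Q := by
      field_simp
    rw [e1, e2] at h2
    have hθ' : θ = 1 - s := by linarith
    rw [hθ'] at h2
    linarith
  have hmain' : N - P * Real.log P - κ * M1 * P ≤ Real.exp (s * D) * (16 * R ^ 2 * E) :=
    le_of_mul_le_mul_left (hmain.trans_eq (by rw [hQ]; ring)) hs
  have hNeq : N = (∫ x, Real.exp (G x) * G x ∂law ρ)
      - κ * ∫ x, Real.exp (G x) * excess R x ∂law ρ := by
    rw [hN, ← integral_const_mul, ← integral_sub hvG (hvE.const_mul κ)]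
    congr 1
    funext x
    ring
  have hcomm : ∫ x, excess R x * Real.exp (G x) ∂law ρ
      = ∫ x, Real.exp (G x) * excess R x ∂law ρ := by simp only [mul_comm]
  simp only [ent, Real.log_exp, ← hP]
  rw [hcomm]
  linarith

/-- The inequality of Bobkov and Ledoux in square-root coordinates. -/
theorem core (hρ : GoodDensity ρ) {R K B M : ℝ} (hR : 0 < R) (hK : 0 ≤ K)
    (hint : Integrable (excess R) (law ρ))
    {G : (Fin n → ℝ) → ℝ} (hGm : Measurable G) (hGb : ∀ x, |G x| ≤ B)
    (hGeven : ∀ i x, G (refl i x) = G x) (hSm : Measurable fun x => gradSq G x)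
    (hSeven : ∀ i x, gradSq G (refl i x) = gradSq G x) (hSb : ∀ x, gradSq G x ≤ M)
    (htay : ∀ x z, G x ≤ G z + ∑ i, pd i G z * (x i - z i) + K * ∑ i, (x i - z i) ^ 2) :
    ent (law ρ) (fun x => Real.exp (G x)) ≤
      16 * R ^ 2 * (∫ x, gradSq G x * Real.exp (G x) ∂law ρ)
      + 1 / (8 * R ^ 2) * ((∫ x, excess R x * Real.exp (G x) ∂law ρ)
          + (∫ x, Real.exp (G x) ∂law ρ) * ∫ x, excess R x ∂law ρ) := by
  have hlim : Tendsto (fun s : ℝ => Real.exp (s * (16 * R ^ 2 * M))
        * (16 * R ^ 2 * ∫ x, gradSq G x * Real.exp (G x) ∂law ρ)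
      + 1 / (8 * R ^ 2) * ((∫ x, excess R x * Real.exp (G x) ∂law ρ)
          + (∫ x, Real.exp (G x) ∂law ρ) * ∫ x, excess R x ∂law ρ))
      (𝓝[>] 0) (𝓝 (16 * R ^ 2 * (∫ x, gradSq G x * Real.exp (G x) ∂law ρ)
      + 1 / (8 * R ^ 2) * ((∫ x, excess R x * Real.exp (G x) ∂law ρ)
          + (∫ x, Real.exp (G x) ∂law ρ) * ∫ x, excess R x ∂law ρ))) := by
    refine tendsto_nhdsWithin_of_tendsto_nhds (Continuous.tendsto' (by fun_prop) _ _ ?_)
    simp
  have hpos : (0 : ℝ) < min (1 / 4) (1 / (256 * R ^ 2 * K + 1)) :=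
    lt_min (by norm_num) (by positivity)
  refine ge_of_tendsto hlim ?_
  filter_upwards [Ioo_mem_nhdsGT hpos] with s hs
  refine core_at hρ hR hK hs.1 (hs.2.le.trans (min_le_left _ _)) ?_ hint hGm hGb hGeven hSm hSeven
    hSb htay
  have h1 : s * (256 * R ^ 2 * K + 1) ≤ 1 :=
    (le_div_iff₀ (by positivity)).1 (hs.2.le.trans (min_le_right _ _))
  have := hs.1
  linarith

end

end Vale.Agent.P245
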