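import Vale.Agent.P245.Defect

/-!
# Restriction to a cube and a smooth cutoff
-/

open MeasureTheory Filter Topology
open scoped ENNReal

namespace Vale.Agent.P245

noncomputable section

variable {n : ℕ} {ρ : (Fin n → ℝ) → ℝ}

/-- The closed cube of half side `r`. -/
def cube (r : ℝ) : Set (Fin n → ℝ) := {x | ∀ i, |x i| ≤ r}

theorem measurableSet_cube (r : ℝ) : MeasurableSet (cube r : Set (Fin n → ℝ)) := by
  rw [cube, Set.ofPred_forall]
  exact MeasurableSet.iInter fun i =>
    measurableSet_le (measurable_pi_apply i).norm measurable_const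

theorem compl_cube (r : ℝ) : (cube r : Set (Fin n → ℝ))ᶜ = {x | ∃ i, r < |x i|} := by
  ext x
  simp [cube]

theorem mem_cube_refl {r : ℝ} (i : Fin n) (x : Fin n → ℝ) :
    refl i x ∈ cube r ↔ x ∈ cube r := by
  refine forall_congr' fun j => ?_
  by_cases h : j = i
  · subst h
    simp [refl]
  · simp [refl, h]

theorem cube_convex {r : ℝ} {x y : Fin n → ℝ} (hx : x ∈ cube r) (hy : y ∈ cube r) {s t : ℝ}
    (hs : 0 < s) (ht : 0 < t) (hst : s + t = 1) : s • x + t • y ∈ cube r := fun i => by
  simp only [Pi.add_apply, Pi.smul_apply, smul_eq_mul]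
  calc |s * x i + t * y i| ≤ |s * x i| + |t * y i| := abs_add_le _ _
    _ = s * |x i| + t * |y i| := by rw [abs_mul, abs_mul, abs_of_pos hs, abs_of_pos ht]
    _ ≤ s * r + t * r := by gcongr <;> [exact hx i; exact hy i]
    _ = r := by rw [← add_mul, hst, one_mul]

/-- The density conditioned on a cube. -/
def cubeDensity (ρ : (Fin n → ℝ) → ℝ) (r : ℝ) : (Fin n → ℝ) → ℝ :=
  (cube r).indicator fun x => ρ x / (law ρ).real (cube r)

theorem law_cubeDensity (hρ : GoodDensity ρ) {r : ℝ} (hm : 0 < (law ρ).real (cube r)) :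
    law (cubeDensity ρ r)
      = ENNReal.ofReal ((law ρ).real (cube r))⁻¹ • (law ρ).restrict (cube r) := by
  have e : (fun x => ENNReal.ofReal (cubeDensity ρ r x))
      = (cube r).indicator (ENNReal.ofReal ((law ρ).real (cube r))⁻¹ •
          fun x => ENNReal.ofReal (ρ x)) := by
    funext x
    by_cases hx : x ∈ cube r
    · rw [cubeDensity, Set.indicator_of_mem hx, Set.indicator_of_mem hx, Pi.smul_apply, smul_eq_mul,
        ← ENNReal.ofReal_mul (inv_nonneg.2 hm.le), div_eq_inv_mul]
    · rw [cubeDensity, Set.indicator_of_notMem hx, Set.indicator_of_notMem hx, ENNReal.ofReal_zero]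
  rw [law, e, withDensity_indicator (measurableSet_cube r),
    withDensity_smul _ hρ.meas.ennreal_ofReal, law, restrict_withDensity (measurableSet_cube r)]

theorem good_cubeDensity (hρ : GoodDensity ρ) {r : ℝ} (hm : 0 < (law ρ).real (cube r)) :
    GoodDensity (cubeDensity ρ r) where
  meas := (hρ.meas.div_const _).indicator (measurableSet_cube r)
  nonneg x := Set.indicator_nonneg (fun y _ => div_nonneg (hρ.nonneg y) hm.le) x
  mass := by
    haveI := isProbability_law hρ
    have h : law (cubeDensity ρ r) Set.univ = ∫⁻ x, ENNReal.ofReal (cubeDensity ρ r x) := by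
      rw [law, withDensity_apply _ MeasurableSet.univ, setLIntegral_univ]
    rw [← h, law_cubeDensity hρ hm, Measure.smul_apply, Measure.restrict_apply_univ,
      smul_eq_mul, ← ofReal_measureReal, ← ENNReal.ofReal_mul (inv_nonneg.2 hm.le),
      inv_mul_cancel₀ hm.ne', ENNReal.ofReal_one]
  logconcave x y s t hs ht hst := by
    have hnn : 0 ≤ cubeDensity ρ r (s • x + t • y) :=
      Set.indicator_nonneg (fun z _ => div_nonneg (hρ.nonneg z) hm.le) _
    by_cases hx : x ∈ cube r
    swap
    · simp [cubeDensity, Set.indicator_of_notMem hx, Real.zero_rpow hs.ne'] at hnn ⊢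
      exact hnn
    by_cases hy : y ∈ cube r
    swap
    · simp [cubeDensity, Set.indicator_of_notMem hy, Real.zero_rpow ht.ne'] at hnn ⊢
      exact hnn
    simp only [cubeDensity, Set.indicator_of_mem hx, Set.indicator_of_mem hy,
      Set.indicator_of_mem (cube_convex hx hy hs ht hst)]
    rw [Real.div_rpow (hρ.nonneg _) hm.le, Real.div_rpow (hρ.nonneg _) hm.le, div_mul_div_comm,
      ← Real.rpow_add hm, hst, Real.rpow_one]
    gcongr
    exact hρ.logconcave x y s t hs ht hst
  even i x := by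
    by_cases hx : x ∈ cube r
    · simp [cubeDensity, Set.indicator_of_mem hx, Set.indicator_of_mem ((mem_cube_refl i x).2 hx),
        hρ.even]
    · simp [cubeDensity, Set.indicator_of_notMem hx,
        Set.indicator_of_notMem (fun h => hx ((mem_cube_refl i x).1 h))]

theorem integral_cubeDensity (hρ : GoodDensity ρ) {r : ℝ} (hm : 0 < (law ρ).real (cube r))
    (F : (Fin n → ℝ) → ℝ) :
    ∫ x, F x ∂law (cubeDensity ρ r)
      = ((law ρ).real (cube r))⁻¹ * ∫ x in cube r, F x ∂law ρ := by
  rw [law_cubeDensity hρ hm, integral_smul_measure, ENNReal.toReal_ofReal (inv_nonneg.2 hm.le),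
    smul_eq_mul]

/-- On a cube the inequality has no defect. -/
theorem lsi_cube (hρ : GoodDensity ρ) {r : ℝ} (hr : 0 < r) (hm : 0 < (law ρ).real (cube r))
    {f : (Fin n → ℝ) → ℝ} (hf : Tame f) :
    ent (law (cubeDensity ρ r)) (fun x => f x ^ 2)
      ≤ 144 * r ^ 2 * energy (law (cubeDensity ρ r)) f := by
  have hρ' := good_cubeDensity hρ hm
  haveI := isProbability_law hρ'
  have hL : ∫⁻ x, ENNReal.ofReal (Real.exp (10 / r ^ 2 * excess r x)) ∂law (cubeDensity ρ r)
      ≤ ENNReal.ofReal (Real.exp 0) := by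
    have h : ∀ᵐ x ∂law (cubeDensity ρ r), x ∈ cube r := by
      rw [law_cubeDensity hρ hm]
      exact Measure.ae_smul_measure (ae_restrict_mem (measurableSet_cube r)) _
    rw [lintegral_congr_ae (g := fun _ => 1) (h.mono fun x hx => ?_)]
    · simp
    · have e : excess r x = 0 := Finset.sum_eq_zero fun i _ => if_neg (not_lt.2 (hx i))
      simp [e]
  have h := defective hρ' hr hL hf
  linarith

/-- A smooth approximation of the largest coordinate. -/
def smax (β : ℝ) (x : Fin n → ℝ) : ℝ := Real.log (1 + ∑ i, Real.cosh (β * x i)) / β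

theorem smax_arg_pos (β : ℝ) (x : Fin n → ℝ) : 0 < 1 + ∑ i, Real.cosh (β * x i) :=
  add_pos_of_pos_of_nonneg one_pos (Finset.sum_nonneg fun i _ => (Real.cosh_pos _).le)

theorem contDiff_smax (β : ℝ) : ContDiff ℝ (⊤ : ℕ∞) (smax (n := n) β) :=
  ((contDiff_const.add (ContDiff.sum fun i _ =>
    Real.contDiff_cosh.comp (contDiff_const.mul (contDiff_apply ℝ ℝ i)))).log
      fun x => (smax_arg_pos β x).ne').div_const β

theorem abs_le_smax {β : ℝ} (hβ : 0 < β) (x : Fin n → ℝ) (i : Fin n) :
    |x i| ≤ smax β x + Real.log 2 / β := by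
  have h1 : Real.exp (β * |x i|) / 2 ≤ 1 + ∑ j, Real.cosh (β * x j) := by
    have h2 : Real.exp (β * |x i|) / 2 ≤ Real.cosh (β * x i) := by
      rw [← Real.cosh_abs, abs_mul, abs_of_pos hβ, Real.cosh_eq]
      linarith [Real.exp_pos (-(β * |x i|))]
    have := Finset.single_le_sum (f := fun j => Real.cosh (β * x j))
      (fun j _ => (Real.cosh_pos _).le) (Finset.mem_univ i)
    linarith
  have h3 := Real.log_le_log (by positivity) h1
  rw [Real.log_div (Real.exp_pos _).ne' two_ne_zero, Real.log_exp] at h3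
  rw [smax, ← add_div, le_div_iff₀ hβ]
  linarith

theorem smax_le {β M : ℝ} (hβ : 0 < β) (hM : 0 ≤ M) {x : Fin n → ℝ} (hx : ∀ i, |x i| ≤ M) :
    smax β x ≤ M + Real.log (n + 1) / β := by
  have h1 : 1 + ∑ i, Real.cosh (β * x i) ≤ (n + 1) * Real.exp (β * M) := by
    have h2 : ∀ i, Real.cosh (β * x i) ≤ Real.exp (β * M) := fun i => by
      rw [← Real.cosh_abs, abs_mul, abs_of_pos hβ, Real.cosh_eq]
      have h4 := Real.exp_le_exp.2 (mul_le_mul_of_nonneg_left (hx i) hβ.le)
      have h5 := Real.exp_le_exp.2 (show -(β * |x i|) ≤ β * M by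
        nlinarith [abs_nonneg (x i)])
      linarith
    have h3 : (1 : ℝ) ≤ Real.exp (β * M) := Real.one_le_exp (by positivity)
    calc 1 + ∑ i, Real.cosh (β * x i) ≤ Real.exp (β * M) + ∑ _i : Fin n, Real.exp (β * M) :=
          add_le_add h3 (Finset.sum_le_sum fun i _ => h2 i)
      _ = _ := by simp; ring
  have h := Real.log_le_log (smax_arg_pos β x) h1
  rw [Real.log_mul (by positivity) (Real.exp_pos _).ne', Real.log_exp] at h
  rw [smax, div_le_iff₀ hβ, add_mul, div_mul_cancel₀ _ hβ.ne']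
  linarith

theorem pd_smax {β : ℝ} (hβ : 0 < β) (x : Fin n → ℝ) (i : Fin n) :
    pd i (smax β) x = Real.sinh (β * x i) / (1 + ∑ j, Real.cosh (β * x j)) := by
  have h : ∀ j : Fin n, HasFDerivAt (fun y : Fin n → ℝ => Real.cosh (β * y j))
      (Real.sinh (β * x j) • (β • ContinuousLinearMap.proj j : (Fin n → ℝ) →L[ℝ] ℝ)) x := fun j =>
    (Real.hasDerivAt_cosh _).comp_hasFDerivAt x ((hasFDerivAt_apply j x).const_mul β)
  have h2 := (((HasFDerivAt.fun_sum (u := Finset.univ) fun j _ => h j).const_add (1 : ℝ)).log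
    (smax_arg_pos β x).ne').const_mul β⁻¹
  have e : smax β = fun y : Fin n → ℝ => β⁻¹ * Real.log (1 + ∑ j, Real.cosh (β * y j)) :=
    funext fun y => by rw [smax, div_eq_inv_mul]
  rw [pd, e, h2.fderiv]
  simp only [FunLike.coe_smul, Pi.smul_apply, smul_eq_mul, ContinuousLinearMap.coe_sum',
    Finset.sum_apply, ContinuousLinearMap.proj_apply, Pi.single_apply]
  simp [mul_ite, eq_comm]
  field_simp

theorem gradSq_smax_le {β : ℝ} (hβ : 0 < β) (x : Fin n → ℝ) : gradSq (smax β) x ≤ 1 := by
  have hp := smax_arg_pos β x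
  have h1 : ∑ i, |pd i (smax β) x| ≤ 1 := by
    simp only [pd_smax hβ, abs_div, abs_of_pos hp]
    rw [← Finset.sum_div, div_le_one hp]
    have h2 : ∀ i, |Real.sinh (β * x i)| ≤ Real.cosh (β * x i) := fun i => by
      rw [abs_le]
      constructor
      · linarith [Real.exp_pos (β * x i), Real.cosh_add_sinh (β * x i)]
      · exact (Real.sinh_lt_cosh _).le
    linarith [Finset.sum_le_sum fun i (_ : i ∈ (Finset.univ : Finset (Fin n))) => h2 i]
  have h0 : ∀ i, |pd i (smax β) x| ≤ 1 := fun i =>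
    (Finset.single_le_sum (f := fun j => |pd j (smax β) x|) (fun j _ => abs_nonneg _)
      (Finset.mem_univ i)).trans h1
  refine le_trans (Finset.sum_le_sum fun i _ => ?_) h1
  rw [← sq_abs]
  exact (sq _).le.trans (mul_le_of_le_one_left (abs_nonneg _) (h0 i))

theorem smoothTransition_deriv_bound :
    ∃ M : ℝ, 1 ≤ M ∧ ∀ t, |deriv Real.smoothTransition t| ≤ M := by
  have hc : HasCompactSupport (deriv Real.smoothTransition) := by
    refine HasCompactSupport.intro (isCompact_Icc (a := (0 : ℝ)) (b := 1)) fun t ht => ?_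
    rw [Set.mem_Icc, not_and_or, not_le, not_le] at ht
    rcases ht with h | h
    · have e : Real.smoothTransition =ᶠ[𝓝 t] fun _ => (0 : ℝ) := by
        filter_upwards [Iio_mem_nhds h] with y hy
        exact Real.smoothTransition.zero_of_nonpos (le_of_lt hy)
      rw [e.deriv_eq, deriv_const]
    · have e : Real.smoothTransition =ᶠ[𝓝 t] fun _ => (1 : ℝ) := by
        filter_upwards [Ioi_mem_nhds h] with y hy
        exact Real.smoothTransition.one_of_one_le (le_of_lt hy)
      rw [e.deriv_eq, deriv_const]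
  obtain ⟨M, hM⟩ := hc.exists_bound_of_continuous
    ((Real.smoothTransition.contDiff (n := 1)).continuous_deriv le_rfl)
  exact ⟨max M 1, le_max_right _ _, fun t =>
    ((Real.norm_eq_abs _).symm.le.trans (hM t)).trans (le_max_left _ _)⟩

/-- The smooth cutoff: one near the cube of half side `R`, zero outside that of half side `3R`. -/
def cutoff (R : ℝ) (x : Fin n → ℝ) : ℝ :=
  Real.smoothTransition (5 / 2 - smax (2 * Real.log (2 * n + 2) / R) x / R)

theorem cutoff_rate_pos {R : ℝ} (hR : 0 < R) : 0 < 2 * Real.log (2 * n + 2) / R := by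
  have : (0 : ℝ) ≤ n := Nat.cast_nonneg n
  have := Real.log_pos (show (1 : ℝ) < 2 * n + 2 by linarith)
  positivity

theorem cutoff_rate {R c : ℝ} (hR : 0 < R) (hc : 0 < c) (hcn : c ≤ 2 * n + 2) :
    Real.log c / (2 * Real.log (2 * n + 2) / R) ≤ R / 2 := by
  have h0 : (0 : ℝ) ≤ n := Nat.cast_nonneg n
  have hl := Real.log_pos (show (1 : ℝ) < 2 * n + 2 by linarith)
  have := Real.log_le_log hc hcn
  rw [div_div_eq_mul_div, div_le_div_iff₀ (by positivity) two_pos]
  nlinarith

theorem contDiff_cutoff (R : ℝ) : ContDiff ℝ (⊤ : ℕ∞) (cutoff (n := n) R) :=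
  Real.smoothTransition.contDiff.comp (contDiff_const.sub ((contDiff_smax _).div_const R))

theorem cutoff_nonneg (R : ℝ) (x : Fin n → ℝ) : 0 ≤ cutoff R x :=
  Real.smoothTransition.nonneg _

theorem cutoff_le_one (R : ℝ) (x : Fin n → ℝ) : cutoff R x ≤ 1 :=
  Real.smoothTransition.le_one _

theorem cutoff_eq_zero {R : ℝ} (hR : 0 < R) {x : Fin n → ℝ} (hx : x ∉ cube (3 * R)) :
    cutoff R x = 0 := by
  obtain ⟨i, hi⟩ : ∃ i, 3 * R < |x i| := by simpa [cube] using hx
  refine Real.smoothTransition.zero_of_nonpos ?_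
  have h1 := abs_le_smax (cutoff_rate_pos (n := n) hR) x i
  have h2 := cutoff_rate (n := n) hR two_pos (by linarith [(Nat.cast_nonneg n : (0 : ℝ) ≤ n)])
  have h3 : 5 / 2 * R ≤ smax (2 * Real.log (2 * n + 2) / R) x := by linarith
  rw [sub_nonpos, le_div_iff₀ hR]
  exact h3

theorem cutoff_eq_one {R : ℝ} (hR : 0 < R) {x : Fin n → ℝ} (hx : x ∈ cube R) :
    cutoff R x = 1 := by
  refine Real.smoothTransition.one_of_one_le ?_
  have h1 := smax_le (cutoff_rate_pos (n := n) hR) hR.le hx
  have h0 : (0 : ℝ) ≤ n := Nat.cast_nonneg n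
  have h2 := cutoff_rate (n := n) (c := n + 1) hR (by linarith) (by linarith)
  rw [le_sub_iff_add_le, ← le_sub_iff_add_le', div_le_iff₀ hR]
  linarith

theorem compact_cutoff {R : ℝ} (hR : 0 < R) : HasCompactSupport (cutoff (n := n) R) := by
  refine HasCompactSupport.intro (isCompact_closedBall (0 : Fin n → ℝ) (3 * R)) fun x hx =>
    cutoff_eq_zero hR fun h => hx ?_
  rw [Metric.mem_closedBall, dist_zero_right, pi_norm_le_iff_of_nonneg (by positivity)]
  exact h

theorem gradSq_cutoff_le {R M : ℝ} (hR : 0 < R)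
    (hM : ∀ t, |deriv Real.smoothTransition t| ≤ M) (x : Fin n → ℝ) :
    gradSq (cutoff R) x ≤ (M / R) ^ 2 := by
  set β := 2 * Real.log (2 * n + 2) / R with hβdef
  set u := 5 / 2 - smax β x / R with hu
  have hd := ((contDiff_smax (n := n) β).differentiable natCast_ne_zero_top x).hasFDerivAt
  have hin : HasFDerivAt (fun y => 5 / 2 - R⁻¹ * smax β y)
      (-(R⁻¹ • fderiv ℝ (smax β) x)) x := (hd.const_mul R⁻¹).const_sub _
  have hu' : 5 / 2 - R⁻¹ * smax β x = u := by rw [hu]; ring
  have hst := ((Real.smoothTransition.contDiff (n := 1)).differentiable one_ne_zero u).hasDerivAt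
  rw [← hu'] at hst
  have h := hst.comp_hasFDerivAt x hin
  have e : cutoff (n := n) R = Real.smoothTransition ∘ fun y => 5 / 2 - R⁻¹ * smax β y :=
    funext fun y => by simp [cutoff, hβdef, div_eq_inv_mul]
  have hpd : ∀ i, pd i (cutoff R) x ^ 2
      = (deriv Real.smoothTransition u / R) ^ 2 * pd i (smax β) x ^ 2 := fun i => by
    rw [pd, e, h.fderiv, hu', pd]
    simp only [FunLike.coe_smul, Pi.smul_apply, smul_eq_mul, FunLike.coe_neg, Pi.neg_apply]
    ring
  rw [gradSq, Finset.sum_congr rfl fun i _ => hpd i, ← Finset.mul_sum]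
  refine (mul_le_of_le_one_right (sq_nonneg _) (gradSq_smax_le (cutoff_rate_pos hR) x)).trans ?_
  rw [div_pow, div_pow]
  gcongr ?_ / _
  rw [← sq_abs]
  exact pow_le_pow_left₀ (abs_nonneg _) (hM u) 2

end

end Vale.Agent.P245
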