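import Vale.Agent.P245.Tame

/-!
# Elementary inequalities for the entropy
-/

open MeasureTheory Filter Topology
open scoped ENNReal

namespace Vale.Agent.P245

noncomputable section

variable {n : ℕ} {μ : Measure (Fin n → ℝ)} [IsProbabilityMeasure μ]

/-- The pointwise Fenchel inequality of `v log v`. -/
theorem fenchel_mul_log {v t : ℝ} (hv : 0 ≤ v) : v * t ≤ v * Real.log v - v + Real.exp t := by
  rcases hv.eq_or_lt' with rfl | hv'
  · simp [(Real.exp_pos t).le]
  · have h := mul_le_mul_of_nonneg_left (Real.add_one_le_exp (t - Real.log v)) hv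
    rw [Real.exp_sub, Real.exp_log hv', mul_div_cancel₀ _ hv'.ne'] at h
    linarith

/-- The variational bound of the entropy. -/
theorem integral_mul_le_ent {v Y : (Fin n → ℝ) → ℝ} {L : ℝ} (hv0 : ∀ x, 0 ≤ v x)
    (hv : Integrable v μ) (hvl : Integrable (fun x => v x * Real.log (v x)) μ)
    (hvY : Integrable (fun x => v x * Y x) μ) (hYm : Measurable Y)
    (hY : ∫⁻ x, ENNReal.ofReal (Real.exp (Y x)) ∂μ ≤ ENNReal.ofReal (Real.exp L)) :
    ∫ x, v x * Y x ∂μ ≤ ent μ v + (∫ x, v x ∂μ) * L := by
  set P := ∫ x, v x ∂μ with hP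
  have he : Integrable (fun x => Real.exp (Y x)) μ := by
    refine ⟨hYm.exp.aestronglyMeasurable, ?_⟩
    rw [hasFiniteIntegral_iff_ofReal (Eventually.of_forall fun x => (Real.exp_pos _).le)]
    exact lt_of_le_of_lt hY ENNReal.ofReal_lt_top
  have heL : ∫ x, Real.exp (Y x) ∂μ ≤ Real.exp L := by
    rw [integral_eq_lintegral_of_nonneg_ae (Eventually.of_forall fun x => (Real.exp_pos _).le)
      hYm.exp.aestronglyMeasurable]
    exact ENNReal.toReal_le_of_le_ofReal (Real.exp_pos _).le hY
  have hP0 : 0 ≤ P := integral_nonneg hv0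
  rcases hP0.eq_or_lt' with h0 | hpos
  · have hz : v =ᵐ[μ] 0 := (integral_eq_zero_iff_of_nonneg hv0 hv).1 h0
    have h1 : ∫ x, v x * Y x ∂μ = 0 :=
      integral_eq_zero_of_ae (hz.mono fun x hx => by simp [Pi.zero_apply] at hx; simp [hx])
    have h2 : ∫ x, v x * Real.log (v x) ∂μ = 0 :=
      integral_eq_zero_of_ae (hz.mono fun x hx => by simp [Pi.zero_apply] at hx; simp [hx])
    rw [h1, ent, h2, ← hP, h0]
    simp
  · set c := Real.log P - L with hc
    have hle : ∀ x, v x * Y x + c * v x + v x
        ≤ v x * Real.log (v x) + Real.exp c * Real.exp (Y x) := fun x => by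
      have h := fenchel_mul_log (t := Y x + c) (hv0 x)
      rw [Real.exp_add] at h
      linarith
    have h := integral_mono (μ := μ) ((hvY.add (hv.const_mul c)).add hv)
      (hvl.add (he.const_mul (Real.exp c))) hle
    simp only [Pi.add_apply] at h
    rw [integral_add (by exact hvY.add (hv.const_mul c)) hv, integral_add hvY (hv.const_mul c),
      integral_add hvl (he.const_mul _), integral_const_mul, integral_const_mul, ← hP] at h
    have hexp : Real.exp c * ∫ x, Real.exp (Y x) ∂μ ≤ P := by
      calc Real.exp c * ∫ x, Real.exp (Y x) ∂μ ≤ Real.exp c * Real.exp L :=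
            mul_le_mul_of_nonneg_left heL (Real.exp_pos _).le
        _ = P := by rw [← Real.exp_add, hc, sub_add_cancel, Real.exp_log hpos]
    rw [ent, ← hP]
    rw [hc] at h
    linarith

/-- The entropy of a function supported in a small set is large. -/
theorem support_le_ent {v : (Fin n → ℝ) → ℝ} {A : Set (Fin n → ℝ)} {L : ℝ} (hA : MeasurableSet A)
    (hv0 : ∀ x, 0 ≤ v x) (hsupp : ∀ x ∉ A, v x = 0) (hv : Integrable v μ)
    (hvl : Integrable (fun x => v x * Real.log (v x)) μ)
    (hAL : μ A ≤ ENNReal.ofReal (Real.exp (-L))) :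
    L * ∫ x, v x ∂μ ≤ ent μ v := by
  set P := ∫ x, v x ∂μ with hP
  have hP0 : 0 ≤ P := integral_nonneg hv0
  rcases hP0.eq_or_lt' with h0 | hpos
  · have hz : v =ᵐ[μ] 0 := (integral_eq_zero_iff_of_nonneg hv0 hv).1 h0
    have h2 : ∫ x, v x * Real.log (v x) ∂μ = 0 :=
      integral_eq_zero_of_ae (hz.mono fun x hx => by simp [Pi.zero_apply] at hx; simp [hx])
    rw [ent, h2, ← hP, h0]
    simp
  · set c := Real.log P + L with hc
    have hle : ∀ x, c * v x + v x ≤ v x * Real.log (v x) + A.indicator (fun _ => Real.exp c) x :=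
      fun x => by
        by_cases hx : x ∈ A
        · have h := fenchel_mul_log (t := c) (hv0 x)
          rw [Set.indicator_of_mem hx]
          linarith
        · simp [hsupp x hx, Set.indicator_of_notMem hx]
    have h := integral_mono (μ := μ) ((hv.const_mul c).add hv)
      (hvl.add ((integrable_const (Real.exp c)).indicator hA)) hle
    simp only [Pi.add_apply] at h
    rw [integral_add (hv.const_mul c) hv, integral_add hvl
        ((integrable_const (Real.exp c)).indicator hA), integral_const_mul,
      integral_indicator_const _ hA, smul_eq_mul, ← hP] at h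
    have hAr : μ.real A * Real.exp c ≤ P := by
      calc μ.real A * Real.exp c ≤ Real.exp (-L) * Real.exp c :=
            mul_le_mul_of_nonneg_right
              (ENNReal.toReal_le_of_le_ofReal (Real.exp_pos _).le hAL) (Real.exp_pos _).le
        _ = P := by rw [← Real.exp_add, hc, neg_add_cancel_comm_assoc, Real.exp_log hpos]
    rw [ent, ← hP]
    rw [hc] at h
    linarith

/-- The entropy in terms of a reference level. -/
theorem ent_eq_integral {v : (Fin n → ℝ) → ℝ} (hv : Integrable v μ)
    (hvl : Integrable (fun x => v x * Real.log (v x)) μ) :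
    ent μ v = ∫ x, (v x * Real.log (v x) - Real.log (∫ y, v y ∂μ) * v x - v x
      + ∫ y, v y ∂μ) ∂μ := by
  set P := ∫ x, v x ∂μ with hP
  rw [integral_add (by exact (hvl.sub (hv.const_mul _)).sub hv) (integrable_const _),
    integral_sub (by exact hvl.sub (hv.const_mul _)) hv, integral_sub hvl (hv.const_mul _),
    integral_const_mul, integral_const, probReal_univ, one_smul, ← hP, ent, ← hP]
  ring

end

end Vale.Agent.P245
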