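import Vale.Agent.P245.Abs

/-! # P245: averaging over the signs of the coordinates -/

open MeasureTheory Set
open scoped ENNReal

namespace Vale.Agent.P245

noncomputable section

variable {n : ℕ} {ρ : (Fin n → ℝ) → ℝ}

/-- The sign change given by `S`. -/
def flipMap (S : Fin n → Bool) (x : Fin n → ℝ) : Fin n → ℝ :=
  fun i => if S i then -x i else x i

/-- The average of a function over all sign changes. -/
def signAvg (F : (Fin n → ℝ) → ℝ) (x : Fin n → ℝ) : ℝ :=
  (∑ S : Fin n → Bool, F (flipMap S x)) / 2 ^ n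

/-- The sign pattern `S` with the `i`-th sign changed. -/
def toggle (i : Fin n) (S : Fin n → Bool) : Fin n → Bool := Function.update S i (!S i)

lemma toggle_toggle (i : Fin n) (S : Fin n → Bool) : toggle i (toggle i S) = S := by
  funext j
  rcases eq_or_ne j i with rfl | hj <;> simp_all [toggle]

lemma flipMap_refl (i : Fin n) (S : Fin n → Bool) (x : Fin n → ℝ) :
    flipMap S (refl i x) = flipMap (toggle i S) x := by
  funext j
  rcases eq_or_ne j i with rfl | hj
  · cases h : S j <;> simp [flipMap, toggle, refl, h]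
  · simp [flipMap, toggle, refl, hj]

lemma refl_flipMap (i : Fin n) (S : Fin n → Bool) (x : Fin n → ℝ) :
    refl i (flipMap S x) = flipMap (toggle i S) x := by
  funext j
  rcases eq_or_ne j i with rfl | hj
  · cases h : S j <;> simp [flipMap, toggle, refl, h]
  · simp [flipMap, toggle, refl, hj]

theorem signAvg_even (F : (Fin n → ℝ) → ℝ) (i : Fin n) (x : Fin n → ℝ) :
    signAvg F (refl i x) = signAvg F x := by
  simp only [signAvg, flipMap_refl]
  congr 1
  exact Equiv.sum_comp (Function.Involutive.toPerm (toggle i) (toggle_toggle i))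
    fun S => F (flipMap S x)

lemma measurePreserving_flipMap (hρ : GoodDensity ρ) (S : Fin n → Bool) :
    MeasurePreserving (flipMap S) (law ρ) (law ρ) := by
  have h : flipMap S =
      fun (x : Fin n → ℝ) j => (if S j then (fun t : ℝ => -t) else id) (x j) := by
    funext x j
    cases hj : S j <;> simp [flipMap, hj]
  have hv : MeasurePreserving (flipMap S) volume volume := by
    rw [h]
    refine volume_preserving_pi (f := fun j => if S j then (fun t : ℝ => -t) else id) fun j => ?_
    split_ifs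
    · exact Measure.measurePreserving_neg volume
    · exact MeasurePreserving.id volume
  have hρS : ∀ x, ρ (flipMap S x) = ρ x := by
    intro x
    rw [← even_abs hρ.even (flipMap S x), ← even_abs hρ.even x]
    congr 1
    funext j
    cases hj : S j <;> simp [flipMap, hj]
  refine ⟨hv.measurable, Measure.ext fun s hs => ?_⟩
  rw [Measure.map_apply hv.measurable hs, law, withDensity_apply _ (hs.preimage hv.measurable),
    withDensity_apply _ hs, ← lintegral_indicator (hs.preimage hv.measurable),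
    ← lintegral_indicator hs]
  conv_rhs => rw [← hv.lintegral_comp ((hρ.meas.ennreal_ofReal).indicator hs)]
  congr 1
  funext x
  by_cases hx : flipMap S x ∈ s <;> simp [hx, hρS]

theorem integral_signAvg (hρ : GoodDensity ρ) {F : (Fin n → ℝ) → ℝ}
    (hF : Integrable F (law ρ)) : ∫ x, signAvg F x ∂law ρ = ∫ x, F x ∂law ρ := by
  have hS : ∀ S : Fin n → Bool, Integrable (fun x => F (flipMap S x)) (law ρ) := fun S =>
    ((measurePreserving_flipMap hρ S).integrable_comp hF.aestronglyMeasurable).2 hF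
  have hI : ∀ S : Fin n → Bool, ∫ x, F (flipMap S x) ∂law ρ = ∫ x, F x ∂law ρ := by
    intro S
    have hT := measurePreserving_flipMap hρ S
    rw [← integral_map hT.measurable.aemeasurable
      (by rw [hT.map_eq]; exact hF.aestronglyMeasurable), hT.map_eq]
  simp only [signAvg]
  rw [integral_div, integral_finsetSum _ fun S _ => hS S]
  simp only [hI, Finset.sum_const, Finset.card_univ, Fintype.card_fun, Fintype.card_bool,
    Fintype.card_fin, nsmul_eq_mul, Nat.cast_pow, Nat.cast_ofNat]
  rw [mul_div_cancel_left₀ _ (by positivity)]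

/-! ### Entropy on the cube -/

/-- The tangent bound for `u ↦ u log u`. -/
lemma mul_log_sub_le {u m : ℝ} (hu : 0 ≤ u) (hm : 0 < m) :
    u * Real.log u - u * Real.log m ≤ u * (u / m - 1) := by
  rcases hu.eq_or_lt with rfl | hu'
  · simp
  rw [← mul_sub, ← Real.log_div hu'.ne' hm.ne']
  exact mul_le_mul_of_nonneg_left (Real.log_le_sub_one_of_pos (div_pos hu' hm)) hu

/-- Entropy on two points. -/
lemma ent_two (a b : ℝ) :
    (a ^ 2 * Real.log (a ^ 2) + b ^ 2 * Real.log (b ^ 2)) / 2
      - (a ^ 2 + b ^ 2) / 2 * Real.log ((a ^ 2 + b ^ 2) / 2) ≤ (a - b) ^ 2 := by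
  rcases (show 0 ≤ (a ^ 2 + b ^ 2) / 2 by positivity).eq_or_lt with h | hm
  · have ha : a = 0 := by nlinarith [sq_nonneg a, sq_nonneg b]
    have hb : b = 0 := by nlinarith [sq_nonneg a, sq_nonneg b]
    simp [ha, hb]
  set m := (a ^ 2 + b ^ 2) / 2 with hm_def
  have h1 := mul_log_sub_le (sq_nonneg a) hm
  have h2 := mul_log_sub_le (sq_nonneg b) hm
  have h3 : (a ^ 2 * (a ^ 2 / m - 1) + b ^ 2 * (b ^ 2 / m - 1)) / 2 ≤ (|a| - |b|) ^ 2 := by
    have e : (a ^ 2 * (a ^ 2 / m - 1) + b ^ 2 * (b ^ 2 / m - 1)) / 2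
        = ((a ^ 2) ^ 2 + (b ^ 2) ^ 2 - m * (a ^ 2 + b ^ 2)) / (2 * m) := by
      field_simp
      ring
    rw [e, div_le_iff₀ (by positivity), hm_def, ← sq_abs a, ← sq_abs b]
    nlinarith [mul_nonneg (sq_nonneg (|a| - |b|)) (sq_nonneg (|a| - |b|))]
  have h4 : (|a| - |b|) ^ 2 ≤ (a - b) ^ 2 :=
    sq_le_sq.2 (abs_abs_sub_abs_le_abs_sub a b)
  have h5 : (a ^ 2 + b ^ 2) * Real.log m = 2 * (m * Real.log m) := by
    have : a ^ 2 + b ^ 2 = 2 * m := by rw [hm_def]; ring
    rw [this]; ring
  linarith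

/-- The square root of the mean of two squares is contractive. -/
lemma sqrt_mean_sub_sq (a b c d : ℝ) :
    (Real.sqrt ((a ^ 2 + b ^ 2) / 2) - Real.sqrt ((c ^ 2 + d ^ 2) / 2)) ^ 2
      ≤ ((a - c) ^ 2 + (b - d) ^ 2) / 2 := by
  have h1 : Real.sqrt ((a ^ 2 + b ^ 2) / 2) ^ 2 = (a ^ 2 + b ^ 2) / 2 :=
    Real.sq_sqrt (by positivity)
  have h2 : Real.sqrt ((c ^ 2 + d ^ 2) / 2) ^ 2 = (c ^ 2 + d ^ 2) / 2 :=
    Real.sq_sqrt (by positivity)
  have h3 : (a * c + b * d) / 2
      ≤ Real.sqrt ((a ^ 2 + b ^ 2) / 2) * Real.sqrt ((c ^ 2 + d ^ 2) / 2) := by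
    rw [← Real.sqrt_mul (by positivity)]
    exact Real.le_sqrt_of_sq_le (by nlinarith [sq_nonneg (a * d - b * c)])
  nlinarith

lemma sum_cons {m : ℕ} {M : Type*} [AddCommMonoid M] (F : (Fin (m + 1) → Bool) → M) :
    ∑ S, F S = ∑ S : Fin m → Bool, (F (Fin.cons false S) + F (Fin.cons true S)) := by
  rw [← Equiv.sum_comp (Fin.consEquiv fun _ : Fin (m + 1) => Bool) F, Fintype.sum_prod_type,
    Fintype.sum_bool, ← Finset.sum_add_distrib]
  exact Finset.sum_congr rfl fun S _ => by simp [Fin.consEquiv, add_comm]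

/-- Entropy on the cube is bounded by the squared differences along the edges. -/
lemma cube_ent : ∀ (m : ℕ) (a : (Fin m → Bool) → ℝ),
    (∑ S, a S ^ 2 * Real.log (a S ^ 2)) / 2 ^ m
      - (∑ S, a S ^ 2) / 2 ^ m * Real.log ((∑ S, a S ^ 2) / 2 ^ m)
      ≤ (∑ i, ∑ S, (a S - a (toggle i S)) ^ 2) / 2 ^ m := by
  intro m
  induction m with
  | zero => intro a; simp
  | succ m ih =>
    intro a
    set a0 : (Fin m → Bool) → ℝ := fun S => a (Fin.cons false S) with ha0
    set a1 : (Fin m → Bool) → ℝ := fun S => a (Fin.cons true S) with ha1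
    set b : (Fin m → Bool) → ℝ := fun S => Real.sqrt ((a0 S ^ 2 + a1 S ^ 2) / 2) with hb
    have hb2 : ∀ S, b S ^ 2 = (a0 S ^ 2 + a1 S ^ 2) / 2 := fun S => Real.sq_sqrt (by positivity)
    have e1 : (∑ S, a S ^ 2 * Real.log (a S ^ 2)) / 2 ^ (m + 1) = (∑ S, (a0 S ^ 2 *
        Real.log (a0 S ^ 2) + a1 S ^ 2 * Real.log (a1 S ^ 2)) / 2) / 2 ^ m := by
      rw [sum_cons, ← Finset.sum_div, div_div, ← pow_succ']
    have e2 : (∑ S, a S ^ 2) / 2 ^ (m + 1) = (∑ S, b S ^ 2) / 2 ^ m := by
      simp only [hb2]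
      rw [sum_cons, ← Finset.sum_div, div_div, ← pow_succ']
    have e3 : ∑ S, (a S - a (toggle 0 S)) ^ 2 = ∑ S, 2 * (a0 S - a1 S) ^ 2 := by
      rw [sum_cons]
      refine Finset.sum_congr rfl fun S _ => ?_
      simp only [toggle, Fin.cons_zero, Fin.update_cons_zero, ha0, ha1, Bool.not_true,
        Bool.not_false]
      ring
    have e4 : ∀ j : Fin m, ∑ S, (a S - a (toggle j.succ S)) ^ 2
        = ∑ S, ((a0 S - a0 (toggle j S)) ^ 2 + (a1 S - a1 (toggle j S)) ^ 2) := by
      intro j
      rw [sum_cons]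
      refine Finset.sum_congr rfl fun S _ => ?_
      simp only [toggle, Fin.cons_succ, ← Fin.cons_update, ha0, ha1]
    have k1 : (∑ S, (a0 S ^ 2 * Real.log (a0 S ^ 2) + a1 S ^ 2 * Real.log (a1 S ^ 2)) / 2) / 2 ^ m
        - (∑ S, b S ^ 2 * Real.log (b S ^ 2)) / 2 ^ m ≤ (∑ S, (a0 S - a1 S) ^ 2) / 2 ^ m := by
      rw [← sub_div, ← Finset.sum_sub_distrib]
      gcongr with S
      rw [hb2]
      exact ent_two _ _
    have k2 : (∑ j : Fin m, ∑ S, (b S - b (toggle j S)) ^ 2) / 2 ^ m
        ≤ (∑ j : Fin m, ∑ S, ((a0 S - a0 (toggle j S)) ^ 2 + (a1 S - a1 (toggle j S)) ^ 2))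
          / 2 ^ (m + 1) := by
      rw [pow_succ', ← div_div, Finset.sum_div _ _ (2 : ℝ)]
      gcongr with j
      rw [Finset.sum_div]
      gcongr with S
      exact sqrt_mean_sub_sq _ _ _ _
    have k3 := ih b
    rw [e1, e2, Fin.sum_univ_succ, e3, ← Finset.mul_sum]
    simp only [e4]
    rw [add_div, pow_succ', mul_div_mul_left _ _ two_ne_zero, ← pow_succ']
    linarith

/-! ### Tame functions -/

lemma Tame.continuous {f : (Fin n → ℝ) → ℝ} (hf : Tame f) : Continuous f := hf.smooth.continuous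

lemma Tame.bounded {f : (Fin n → ℝ) → ℝ} (hf : Tame f) : ∃ C, ∀ x, |f x| ≤ C := by
  obtain ⟨c, hc⟩ := hf.const_outside
  obtain ⟨C, hC⟩ := hc.exists_bound_of_continuous (hf.continuous.sub continuous_const)
  refine ⟨C + |c|, fun x => ?_⟩
  have h : |f x - c| ≤ C := hC x
  have := abs_sub_abs_le_abs_sub (f x) c
  linarith

lemma continuous_pd {f : (Fin n → ℝ) → ℝ} (hf : Tame f) (i : Fin n) : Continuous (pd i f) :=
  (hf.smooth.continuous_fderiv (by simp)).clm_apply continuous_const

lemma bounded_pd {f : (Fin n → ℝ) → ℝ} (hf : Tame f) (i : Fin n) :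
    ∃ C, ∀ x, |pd i f x| ≤ C := by
  obtain ⟨c, hc⟩ := hf.const_outside
  obtain ⟨C, hC⟩ := ((hc.fderiv_apply ℝ (Pi.single i 1)).exists_bound_of_continuous
    (f := fun x => fderiv ℝ (fun y => f y - c) x (Pi.single i 1)) (by
      simp only [fderiv_sub_const]
      exact continuous_pd hf i))
  exact ⟨C, fun x => by simpa [pd, fderiv_sub_const] using hC x⟩

lemma integrable_of_cont_bdd (hρ : GoodDensity ρ) {F : (Fin n → ℝ) → ℝ} (hF : Continuous F)
    {C : ℝ} (hC : ∀ x, |F x| ≤ C) : Integrable F (law ρ) :=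
  have := isProbability_law hρ
  Integrable.of_bound hF.aestronglyMeasurable C (Filter.Eventually.of_forall hC)

/-! ### The slices -/

/-- Cauchy-Schwarz on an interval. -/
lemma sq_integral_le {a b : ℝ} (hab : a ≤ b) {h : ℝ → ℝ} (hh : Continuous h) :
    (∫ u in a..b, h u) ^ 2 ≤ (b - a) * ∫ u in a..b, h u ^ 2 := by
  rcases hab.eq_or_lt with rfl | hab'
  · simp
  set I := ∫ u in a..b, h u with hI
  set m := I / (b - a) with hm
  have h0 : 0 ≤ ∫ u in a..b, (h u - m) ^ 2 :=
    intervalIntegral.integral_nonneg hab fun u _ => sq_nonneg _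
  have e : ∫ u in a..b, (h u - m) ^ 2
      = (∫ u in a..b, h u ^ 2) - 2 * m * I + (b - a) * m ^ 2 := by
    have e1 : (fun u => (h u - m) ^ 2) = fun u => h u ^ 2 - 2 * m * h u + m ^ 2 := by
      funext u; ring
    have i1 : IntervalIntegrable (fun u => h u ^ 2) volume a b :=
      (hh.pow 2).intervalIntegrable _ _
    have i2 : IntervalIntegrable (fun u => 2 * m * h u) volume a b :=
      (continuous_const.mul hh).intervalIntegrable _ _
    have i3 : IntervalIntegrable (fun _ : ℝ => m ^ 2) volume a b :=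
      continuous_const.intervalIntegrable _ _
    rw [e1, intervalIntegral.integral_add (i1.sub i2) i3, intervalIntegral.integral_sub i1 i2,
      intervalIntegral.integral_const_mul, intervalIntegral.integral_const, smul_eq_mul]
  have hmI : (b - a) * m = I := by rw [hm]; field_simp [(sub_pos.2 hab').ne']
  rw [e] at h0
  have := mul_nonneg (sub_nonneg.2 hab) h0
  rw [← hmI] at this ⊢
  nlinarith

/-- The difference across the `i`-th hyperplane, weighted by the density. -/
lemma diff_sq_le (hρ : GoodDensity ρ) {f : (Fin n → ℝ) → ℝ} (hf : Tame f) (i : Fin n) {R : ℝ}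
    (x : Fin n → ℝ) (hx : |x i| ≤ R) :
    ENNReal.ofReal (ρ x) * ENNReal.ofReal ((f x - f (refl i x)) ^ 2)
      ≤ ENNReal.ofReal (2 * R) * ∫⁻ u : ℝ, ENNReal.ofReal (ρ (Function.update x i u))
          * ENNReal.ofReal (pd i f (Function.update x i u) ^ 2) := by
  set T := |x i| with hT
  set g : ℝ → ℝ := fun u => pd i f (Function.update x i u) with hg
  have hgc : Continuous g := (continuous_pd hf i).comp (continuous_const.update i continuous_id)
  have hd : ∀ u, HasDerivAt (fun v => f (Function.update x i v)) (g u) u := fun u =>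
    ((hf.smooth.differentiable (by simp)).differentiableAt.hasFDerivAt).comp_hasDerivAt u
      (hasDerivAt_update x i u)
  have hftc : ∫ u in -T..T, g u
      = f (Function.update x i T) - f (Function.update x i (-T)) :=
    intervalIntegral.integral_eq_sub_of_hasDerivAt (fun u _ => hd u)
      (hgc.intervalIntegrable _ _)
  have hsq : (f x - f (refl i x)) ^ 2 = (∫ u in -T..T, g u) ^ 2 := by
    rw [hftc, hT]
    rcases le_or_gt 0 (x i) with h | h
    · rw [abs_of_nonneg h, Function.update_eq_self]; rfl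
    · rw [abs_of_neg h, neg_neg, Function.update_eq_self]
      show _ = (f (refl i x) - f x) ^ 2
      ring
  have hT0 : 0 ≤ T := abs_nonneg _
  have hR : T ≤ R := hx
  have hI0 : 0 ≤ ∫ u in -T..T, g u ^ 2 :=
    intervalIntegral.integral_nonneg (by linarith) fun u _ => sq_nonneg _
  have hb : (f x - f (refl i x)) ^ 2 ≤ 2 * R * ∫ u in -T..T, g u ^ 2 := by
    rw [hsq]
    refine (sq_integral_le (by linarith) hgc).trans ?_
    nlinarith
  refine (mul_le_mul' le_rfl (ENNReal.ofReal_le_ofReal hb)).trans ?_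
  have hgi : IntegrableOn (fun u => g u ^ 2) (Ioc (-T) T) := (hgc.pow 2).integrableOn_Ioc
  rw [ENNReal.ofReal_mul (by linarith), mul_left_comm,
    intervalIntegral.integral_of_le (by linarith),
    ofReal_integral_eq_lintegral_ofReal hgi (Filter.Eventually.of_forall fun u => sq_nonneg _),
    ← lintegral_const_mul' _ _ ENNReal.ofReal_ne_top]
  refine mul_le_mul' le_rfl ?_
  refine (setLIntegral_mono' measurableSet_Ioc fun (u : ℝ) (hu : u ∈ Ioc (-T) T) => ?_).trans
    (setLIntegral_le_lintegral _ _)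
  refine mul_le_mul' (ENNReal.ofReal_le_ofReal ?_) le_rfl
  refine density_anti hρ fun j => ?_
  rcases eq_or_ne j i with rfl | hj
  · rw [Function.update_self, ← hT, abs_le]
    exact ⟨hu.1.le, hu.2⟩
  · rw [Function.update_of_ne hj]

/-- The differences on the slab are bounded by the partial derivative. -/
lemma lintegral_diff_small (hρ : GoodDensity ρ) {f : (Fin n → ℝ) → ℝ} (hf : Tame f) (i : Fin n)
    {R : ℝ} (hR : 0 ≤ R) :
    ∫⁻ x, {y : Fin n → ℝ | |y i| ≤ R}.indicator
        (fun y => ENNReal.ofReal ((f y - f (refl i y)) ^ 2)) x ∂law ρ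
      ≤ ENNReal.ofReal (4 * R ^ 2) * ∫⁻ x, ENNReal.ofReal (pd i f x ^ 2) ∂law ρ := by
  set A := {y : Fin n → ℝ | |y i| ≤ R} with hA
  have hAm : MeasurableSet A := measurableSet_le (measurable_pi_apply i).abs measurable_const
  set K : (Fin n → ℝ) → ℝ≥0∞ := fun y => ENNReal.ofReal (ρ y) * ENNReal.ofReal (pd i f y ^ 2)
    with hK
  have hKm : Measurable K :=
    hρ.meas.ennreal_ofReal.mul ((continuous_pd hf i).measurable.pow_const 2).ennreal_ofReal
  have hgm : Measurable fun x => ENNReal.ofReal (pd i f x ^ 2) :=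
    ((continuous_pd hf i).measurable.pow_const 2).ennreal_ofReal
  have hDm : Measurable fun y => ENNReal.ofReal ((f y - f (refl i y)) ^ 2) :=
    ((hf.continuous.measurable.sub
      (hf.continuous.measurable.comp (volume_preserving_refl i).measurable)).pow_const
        2).ennreal_ofReal
  set L : (Fin n → ℝ) → ℝ≥0∞ := fun x => ∫⁻ u : ℝ, K (Function.update x i u) with hL
  have hLm : Measurable L :=
    Measurable.lintegral_prod_right' (f := fun p : (Fin n → ℝ) × ℝ => K (Function.update p.1 i p.2))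
      (hKm.comp measurable_update')
  have hFub : ∫⁻ x, A.indicator L x = ENNReal.ofReal (2 * R) * ∫⁻ x, K x := by
    rw [← lintegral_const_mul _ hKm, volume_pi]
    refine lintegral_eq_of_lmarginal_eq {i} (hLm.indicator hAm) (hKm.const_mul _) ?_
    funext x
    rw [lmarginal_singleton, lmarginal_singleton]
    simp only []
    rw [lintegral_const_mul (ENNReal.ofReal (2 * R)) (f := fun u => K (Function.update x i u))
      (hKm.comp (measurable_update x))]
    have hind : ∀ u : ℝ, A.indicator L (Function.update x i u)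
        = (Icc (-R) R).indicator (fun _ => L x) u := by
      intro u
      have : L (Function.update x i u) = L x := by simp [hL]
      by_cases hu : u ∈ Icc (-R) R
      · rw [Set.indicator_of_mem hu, Set.indicator_of_mem (by simpa [hA, abs_le] using hu), this]
      · rw [Set.indicator_of_notMem hu, Set.indicator_of_notMem (by simpa [hA, abs_le] using hu)]
    simp only [hind]
    rw [lintegral_indicator measurableSet_Icc, setLIntegral_const, Real.volume_Icc, mul_comm,
      show R - -R = 2 * R by ring]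
  rw [law, lintegral_withDensity_eq_lintegral_mul _ hρ.meas.ennreal_ofReal (hDm.indicator hAm),
    lintegral_withDensity_eq_lintegral_mul _ hρ.meas.ennreal_ofReal hgm]
  calc ∫⁻ x, ENNReal.ofReal (ρ x) * A.indicator (fun y => ENNReal.ofReal ((f y - f (refl i y)) ^ 2)) x
      ≤ ∫⁻ x, ENNReal.ofReal (2 * R) * A.indicator L x := by
        refine lintegral_mono fun x => ?_
        by_cases hx : x ∈ A
        · rw [Set.indicator_of_mem hx, Set.indicator_of_mem hx]
          exact diff_sq_le hρ hf i x hx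
        · simp [hx]
    _ = ENNReal.ofReal (4 * R ^ 2) * ∫⁻ x, K x := by
        rw [lintegral_const_mul _ (hLm.indicator hAm), hFub, ← mul_assoc,
          ← ENNReal.ofReal_mul (by linarith)]
        ring_nf
    _ = _ := by simp [hK]

/-- The squared difference across one hyperplane. -/
lemma integral_diff_le (hρ : GoodDensity ρ) {R : ℝ} (hR : 0 < R)
    (hint : Integrable (excess R) (law ρ)) {f : (Fin n → ℝ) → ℝ} (hf : Tame f) (i : Fin n) :
    ∫ x, (f x - f (refl i x)) ^ 2 ∂law ρ ≤ 4 * R ^ 2 * ∫ x, pd i f x ^ 2 ∂law ρ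
      + 4 / R ^ 2 * ∫ x, f x ^ 2 * (if R < |x i| then x i ^ 2 else 0) ∂law ρ := by
  obtain ⟨C, hC⟩ := hf.bounded
  obtain ⟨C', hC'⟩ := bounded_pd hf i
  have := isProbability_law hρ
  set A := {y : Fin n → ℝ | |y i| ≤ R} with hA
  have hAm : MeasurableSet A := measurableSet_le (measurable_pi_apply i).abs measurable_const
  set e : (Fin n → ℝ) → ℝ := fun x => if R < |x i| then x i ^ 2 else 0 with he
  have hem : Measurable e := Measurable.ite (measurableSet_lt measurable_const
    (measurable_pi_apply i).abs) ((measurable_pi_apply i).pow_const 2) measurable_const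
  have hrc : Continuous (refl i) := continuous_id.update i (continuous_apply i).neg
  set D : (Fin n → ℝ) → ℝ := fun x => (f x - f (refl i x)) ^ 2 with hD
  have hDc : Continuous D := (hf.continuous.sub (hf.continuous.comp hrc)).pow 2
  have hDb : ∀ x, |D x| ≤ (2 * C) ^ 2 := fun x => by
    rw [hD, abs_of_nonneg (sq_nonneg _)]
    have h1 := abs_le.1 (hC x)
    have h2 := abs_le.1 (hC (refl i x))
    exact sq_le_sq' (by linarith) (by linarith)
  have hDi : Integrable D (law ρ) := integrable_of_cont_bdd hρ hDc hDb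
  have hf2 : Integrable (fun x => f x ^ 2) (law ρ) :=
    integrable_of_cont_bdd hρ (hf.continuous.pow 2) (C := C ^ 2) fun x => by
      rw [abs_of_nonneg (sq_nonneg _)]
      exact sq_le_sq' (abs_le.1 (hC x)).1 (abs_le.1 (hC x)).2
  have hg2 : Integrable (fun x => pd i f x ^ 2) (law ρ) :=
    integrable_of_cont_bdd hρ ((continuous_pd hf i).pow 2) (C := C' ^ 2) fun x => by
      rw [abs_of_nonneg (sq_nonneg _)]
      exact sq_le_sq' (abs_le.1 (hC' x)).1 (abs_le.1 (hC' x)).2
  have hfe : Integrable (fun x => f x ^ 2 * e x) (law ρ) := by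
    refine Integrable.mono' (hint.const_mul (C ^ 2))
      ((hf.continuous.measurable.pow_const 2).mul hem).aestronglyMeasurable
      (Filter.Eventually.of_forall fun x => ?_)
    have he0 : 0 ≤ e x := by simp only [he]; split_ifs <;> positivity
    rw [Real.norm_eq_abs, abs_of_nonneg (mul_nonneg (sq_nonneg _) he0)]
    refine mul_le_mul (sq_le_sq' (abs_le.1 (hC x)).1 (abs_le.1 (hC x)).2) ?_ he0 (sq_nonneg C)
    exact Finset.single_le_sum (f := fun j => if R < |x j| then x j ^ 2 else 0)
      (fun j _ => by split_ifs <;> positivity) (Finset.mem_univ i)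
  have hsmall : ∫ x, A.indicator D x ∂law ρ ≤ 4 * R ^ 2 * ∫ x, pd i f x ^ 2 ∂law ρ := by
    rw [← ENNReal.ofReal_le_ofReal_iff (mul_nonneg (by positivity)
        (integral_nonneg fun _ => sq_nonneg _)),
      ofReal_integral_eq_lintegral_ofReal (hDi.indicator hAm) (Filter.Eventually.of_forall
        fun x => Set.indicator_nonneg (fun y _ => sq_nonneg _) x),
      ENNReal.ofReal_mul (by positivity), ofReal_integral_eq_lintegral_ofReal hg2
        (Filter.Eventually.of_forall fun x => sq_nonneg _)]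
    refine le_of_eq_of_le ?_ (lintegral_diff_small hρ hf i hR.le)
    refine lintegral_congr fun x => ?_
    by_cases hx : x ∈ A <;> simp [hA, hD] <;> simp_all
  set G : (Fin n → ℝ) → ℝ := Aᶜ.indicator fun x => f x ^ 2 with hG
  have hGi : Integrable G (law ρ) := hf2.indicator hAm.compl
  have hmp := measurePreserving_refl hρ i
  have hGr : Integrable (fun x => G (refl i x)) (law ρ) :=
    (hmp.integrable_comp hGi.aestronglyMeasurable).2 hGi
  have hGI : ∫ x, G (refl i x) ∂law ρ = ∫ x, G x ∂law ρ := by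
    rw [← integral_map hmp.measurable.aemeasurable
      (by rw [hmp.map_eq]; exact hGi.aestronglyMeasurable), hmp.map_eq]
  have hpt : ∀ x, D x ≤ A.indicator D x + (2 * G x + 2 * G (refl i x)) := by
    intro x
    have hiff : refl i x ∈ A ↔ x ∈ A := by simp [hA, refl]
    by_cases hx : x ∈ A
    · have : refl i x ∈ A := hiff.2 hx
      simp [hG, hx, this]
    · have : refl i x ∉ A := fun h => hx (hiff.1 h)
      simp only [hG, hD, Set.indicator_of_notMem hx, Set.indicator_of_mem (show x ∈ Aᶜ from hx),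
        Set.indicator_of_mem (show refl i x ∈ Aᶜ from this)]
      nlinarith [sq_nonneg (f x + f (refl i x))]
  have hGe : ∀ x, G x ≤ 1 / R ^ 2 * (f x ^ 2 * e x) := by
    intro x
    by_cases hx : x ∈ A
    · have : ¬ R < |x i| := not_lt.2 hx
      simp [hG, hx, he, this]
    · have hxl : R < |x i| := not_le.1 hx
      have h2 : R ^ 2 ≤ x i ^ 2 := by rw [← sq_abs (x i)]; exact pow_le_pow_left₀ hR.le hxl.le 2
      simp only [hG, Set.indicator_of_mem (show x ∈ Aᶜ from hx), he, if_pos hxl]
      rw [div_mul_eq_mul_div, one_mul, le_div_iff₀ (by positivity)]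
      exact mul_le_mul_of_nonneg_left h2 (sq_nonneg _)
  have h1 : ∫ x, D x ∂law ρ
      ≤ ∫ x, (A.indicator D x + (2 * G x + 2 * G (refl i x))) ∂law ρ :=
    integral_mono hDi ((hDi.indicator hAm).add ((hGi.const_mul 2).add (hGr.const_mul 2))) hpt
  have i1 : Integrable (fun x => 2 * G x + 2 * G (refl i x)) (law ρ) :=
    (hGi.const_mul 2).add (hGr.const_mul 2)
  rw [integral_add (hDi.indicator hAm) i1,
    integral_add (hGi.const_mul 2) (hGr.const_mul 2), integral_const_mul, integral_const_mul,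
    hGI] at h1
  have h2 : ∫ x, G x ∂law ρ ≤ 1 / R ^ 2 * ∫ x, f x ^ 2 * e x ∂law ρ := by
    rw [← integral_const_mul]
    exact integral_mono hGi (hfe.const_mul _) hGe
  have h4 : 4 / R ^ 2 * ∫ x, f x ^ 2 * e x ∂law ρ
      = 4 * (1 / R ^ 2 * ∫ x, f x ^ 2 * e x ∂law ρ) := by ring
  show ∫ x, D x ∂law ρ ≤ _ + 4 / R ^ 2 * ∫ x, f x ^ 2 * e x ∂law ρ
  linarith

/-- Entropy over the signs, bounded by the partial derivatives and the large coordinates. -/
theorem ent_le_ent_signAvg (hρ : GoodDensity ρ) {R : ℝ} (hR : 0 < R)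
    (hint : Integrable (excess R) (law ρ)) {f : (Fin n → ℝ) → ℝ} (hf : Tame f) :
    ent (law ρ) (fun x => f x ^ 2) ≤ ent (law ρ) (signAvg fun x => f x ^ 2)
      + 8 * R ^ 2 * energy (law ρ) f + 4 / R ^ 2 * ∫ x, f x ^ 2 * excess R x ∂law ρ := by
  obtain ⟨C, hC⟩ := hf.bounded
  have := isProbability_law hρ
  have hsq : ∀ x, f x ^ 2 ∈ Icc 0 (C ^ 2) := fun x =>
    ⟨sq_nonneg _, sq_le_sq' (abs_le.1 (hC x)).1 (abs_le.1 (hC x)).2⟩
  obtain ⟨M, hM⟩ := (isCompact_Icc (a := (0:ℝ)) (b := C ^ 2)).exists_bound_of_continuousOn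
    Real.continuous_mul_log.continuousOn
  have hflc : ∀ S : Fin n → Bool, Continuous (flipMap S) := fun S => continuous_pi fun j => by
    unfold flipMap
    split_ifs
    · exact (continuous_apply j).neg
    · exact continuous_apply j
  set h : (Fin n → ℝ) → ℝ := signAvg fun x => f x ^ 2 with hh
  have hhc : Continuous h :=
    (continuous_finsetSum _ fun S _ => (hf.continuous.comp (hflc S)).pow 2).div_const _
  have hhm : ∀ x, h x ∈ Icc 0 (C ^ 2) := by
    intro x
    refine ⟨div_nonneg (Finset.sum_nonneg fun S _ => sq_nonneg _) (by positivity), ?_⟩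
    rw [hh, signAvg, div_le_iff₀ (by positivity)]
    refine (Finset.sum_le_sum fun S _ => (hsq (flipMap S x)).2).trans_eq ?_
    simp [mul_comm]
  have hu : Integrable (fun x => f x ^ 2) (law ρ) :=
    integrable_of_cont_bdd hρ (hf.continuous.pow 2) (C := C ^ 2) fun x => by
      rw [abs_of_nonneg (sq_nonneg _)]; exact (hsq x).2
  have hul : Integrable (fun x => f x ^ 2 * Real.log (f x ^ 2)) (law ρ) :=
    integrable_of_cont_bdd hρ (Real.continuous_mul_log.comp (hf.continuous.pow 2))
      (C := M) fun x => hM _ (hsq x)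
  have hhl : Integrable (fun x => h x * Real.log (h x)) (law ρ) :=
    integrable_of_cont_bdd hρ (Real.continuous_mul_log.comp hhc) (C := M) fun x => hM _ (hhm x)
  have hrc : ∀ i : Fin n, Continuous (refl i) := fun i =>
    continuous_id.update i (continuous_apply i).neg
  have hD : ∀ i : Fin n, Integrable (fun x => (f x - f (refl i x)) ^ 2) (law ρ) := fun i =>
    integrable_of_cont_bdd hρ ((hf.continuous.sub (hf.continuous.comp (hrc i))).pow 2)
      (C := (2 * C) ^ 2) fun x => by
      rw [abs_of_nonneg (sq_nonneg _)]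
      have h1 := abs_le.1 (hC x)
      have h2 := abs_le.1 (hC (refl i x))
      exact sq_le_sq' (by linarith) (by linarith)
  have hAD : ∀ i : Fin n,
      Integrable (fun x => signAvg (fun y => (f y - f (refl i y)) ^ 2) x) (law ρ) := fun i =>
    (integrable_finsetSum _ fun S _ =>
      ((measurePreserving_flipMap hρ S).integrable_comp (hD i).aestronglyMeasurable).2
        (hD i)).div_const _
  have hAl : Integrable (signAvg fun x => f x ^ 2 * Real.log (f x ^ 2)) (law ρ) :=
    (integrable_finsetSum _ fun S _ =>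
      ((measurePreserving_flipMap hρ S).integrable_comp hul.aestronglyMeasurable).2
        hul).div_const _
  have hpt : ∀ x, signAvg (fun y => f y ^ 2 * Real.log (f y ^ 2)) x - h x * Real.log (h x)
      ≤ ∑ i, signAvg (fun y => (f y - f (refl i y)) ^ 2) x := by
    intro x
    have := cube_ent n fun S => f (flipMap S x)
    simp only [hh, signAvg, refl_flipMap]
    rw [← Finset.sum_div]
    exact this
  have hdiff : ∫ x, f x ^ 2 * Real.log (f x ^ 2) ∂law ρ - ∫ x, h x * Real.log (h x) ∂law ρ
      ≤ ∑ i, ∫ x, (f x - f (refl i x)) ^ 2 ∂law ρ := by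
    have key : ∫ x, (signAvg (fun y => f y ^ 2 * Real.log (f y ^ 2)) x - h x * Real.log (h x))
        ∂law ρ ≤ ∫ x, ∑ i, signAvg (fun y => (f y - f (refl i y)) ^ 2) x ∂law ρ :=
      integral_mono (hAl.sub hhl) (integrable_finsetSum _ fun i _ => hAD i) hpt
    rw [integral_sub hAl hhl, integral_signAvg hρ hul,
      integral_finsetSum _ fun i _ => hAD i] at key
    refine key.trans_eq (Finset.sum_congr rfl fun i _ => integral_signAvg hρ (hD i))
  have hmass : ∫ x, h x ∂law ρ = ∫ x, f x ^ 2 ∂law ρ := integral_signAvg hρ hu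
  have hpd : ∀ i : Fin n, Integrable (fun x => pd i f x ^ 2) (law ρ) := by
    intro i
    obtain ⟨C', hC'⟩ := bounded_pd hf i
    exact integrable_of_cont_bdd hρ ((continuous_pd hf i).pow 2) (C := C' ^ 2) fun x => by
      rw [abs_of_nonneg (sq_nonneg _)]
      exact sq_le_sq' (abs_le.1 (hC' x)).1 (abs_le.1 (hC' x)).2
  have hex : ∀ i : Fin n,
      Integrable (fun x => f x ^ 2 * (if R < |x i| then x i ^ 2 else 0)) (law ρ) := by
    intro i
    refine Integrable.mono' (hint.const_mul (C ^ 2))
      ((hf.continuous.measurable.pow_const 2).mul (Measurable.ite (measurableSet_lt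
        measurable_const (measurable_pi_apply i).abs) ((measurable_pi_apply i).pow_const 2)
        measurable_const)).aestronglyMeasurable (Filter.Eventually.of_forall fun x => ?_)
    have he0 : 0 ≤ (if R < |x i| then x i ^ 2 else 0) := by split_ifs <;> positivity
    rw [Real.norm_eq_abs, abs_of_nonneg (mul_nonneg (sq_nonneg _) he0)]
    refine mul_le_mul (hsq x).2 ?_ he0 (sq_nonneg C)
    exact Finset.single_le_sum (f := fun j => if R < |x j| then x j ^ 2 else 0)
      (fun j _ => by split_ifs <;> positivity) (Finset.mem_univ i)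
  have hE : energy (law ρ) f = ∑ i, ∫ x, pd i f x ^ 2 ∂law ρ :=
    integral_finsetSum _ fun i _ => hpd i
  have hX : ∫ x, f x ^ 2 * excess R x ∂law ρ
      = ∑ i, ∫ x, f x ^ 2 * (if R < |x i| then x i ^ 2 else 0) ∂law ρ := by
    simp only [excess, Finset.mul_sum]
    exact integral_finsetSum _ fun i _ => hex i
  have hsum : ∑ i, ∫ x, (f x - f (refl i x)) ^ 2 ∂law ρ
      ≤ 4 * R ^ 2 * energy (law ρ) f + 4 / R ^ 2 * ∫ x, f x ^ 2 * excess R x ∂law ρ := by
    rw [hE, hX, Finset.mul_sum, Finset.mul_sum, ← Finset.sum_add_distrib]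
    exact Finset.sum_le_sum fun i _ => integral_diff_le hρ hR hint hf i
  have hE0 : 0 ≤ R ^ 2 * energy (law ρ) f := by
    refine mul_nonneg (sq_nonneg _) ?_
    rw [hE]
    exact Finset.sum_nonneg fun i _ => integral_nonneg fun x => sq_nonneg _
  show (∫ x, f x ^ 2 * Real.log (f x ^ 2) ∂law ρ)
      - (∫ x, f x ^ 2 ∂law ρ) * Real.log (∫ x, f x ^ 2 ∂law ρ)
    ≤ (∫ x, h x * Real.log (h x) ∂law ρ) - (∫ x, h x ∂law ρ) * Real.log (∫ x, h x ∂law ρ)
      + 8 * R ^ 2 * energy (law ρ) f + 4 / R ^ 2 * ∫ x, f x ^ 2 * excess R x ∂law ρ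
  rw [hmass]
  linarith

end

end Vale.Agent.P245
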