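import Vale.Agent.P245.Core
import Vale.Agent.P245.Ent
import Vale.Agent.P245.Signs

/-!
# The logarithmic Sobolev inequality with a small defect
-/

open MeasureTheory Filter Topology
open scoped ENNReal

namespace Vale.Agent.P245

noncomputable section

variable {n : ℕ} {ρ : (Fin n → ℝ) → ℝ}

theorem flipMap_flipMap (S : Fin n → Bool) (x : Fin n → ℝ) : flipMap S (flipMap S x) = x := by
  funext i
  simp only [flipMap]
  split_ifs <;> simp

theorem continuous_flipMap (S : Fin n → Bool) : Continuous (flipMap S) :=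
  continuous_pi fun i => by
    simp only [flipMap]
    split_ifs
    · exact (continuous_apply i).neg
    · exact continuous_apply i

/-- A sign change as a continuous linear map. -/
def flipL (S : Fin n → Bool) : (Fin n → ℝ) →L[ℝ] (Fin n → ℝ) :=
  ContinuousLinearMap.pi fun i => (if S i then -1 else 1 : ℝ) • ContinuousLinearMap.proj i

theorem flipL_apply (S : Fin n → Bool) (x : Fin n → ℝ) : flipL S x = flipMap S x := by
  funext i
  by_cases h : S i <;> simp [flipL, flipMap, h]

theorem flipMap_single (S : Fin n → Bool) (i : Fin n) :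
    flipMap S (Pi.single i 1) = (if S i then -1 else 1 : ℝ) • (Pi.single i 1 : Fin n → ℝ) := by
  funext j
  by_cases hj : j = i
  · subst hj
    by_cases h : S j <;> simp [flipMap, h]
  · simp [flipMap, hj]

theorem pd_comp_flip {g : (Fin n → ℝ) → ℝ} (hg : Differentiable ℝ g) (S : Fin n → Bool)
    (i : Fin n) (x : Fin n → ℝ) :
    pd i (fun y => g (flipMap S y)) x = (if S i then -1 else 1 : ℝ) * pd i g (flipMap S x) := by
  have e : (fun y => g (flipMap S y)) = g ∘ flipL S := funext fun y => by simp [flipL_apply]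
  rw [pd, e, fderiv_comp x (hg _) (flipL S).differentiableAt, ContinuousLinearMap.fderiv,
    ContinuousLinearMap.comp_apply, flipL_apply, flipL_apply, flipMap_single, map_smul, smul_eq_mul]
  rfl

theorem gradSq_comp_flip {g : (Fin n → ℝ) → ℝ} (hg : Differentiable ℝ g) (S : Fin n → Bool)
    (x : Fin n → ℝ) : gradSq (fun y => g (flipMap S y)) x = gradSq g (flipMap S x) := by
  refine Finset.sum_congr rfl fun i _ => ?_
  rw [pd_comp_flip hg]
  split_ifs <;> ring

theorem refl_eq_flipMap (i : Fin n) (x : Fin n → ℝ) :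
    refl i x = flipMap (fun j => decide (j = i)) x := by
  funext j
  by_cases h : j = i
  · subst h
    simp [refl, flipMap]
  · simp [refl, flipMap, h]

theorem gradSq_even {g : (Fin n → ℝ) → ℝ} (hg : Differentiable ℝ g)
    (heven : ∀ i x, g (refl i x) = g x) (i : Fin n) (x : Fin n → ℝ) :
    gradSq g (refl i x) = gradSq g x := by
  rw [refl_eq_flipMap, ← gradSq_comp_flip hg]
  congr 1
  funext y
  rw [← refl_eq_flipMap, heven]

theorem excess_flip (R : ℝ) (S : Fin n → Bool) (x : Fin n → ℝ) :
    excess R (flipMap S x) = excess R x := by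
  refine Finset.sum_congr rfl fun j _ => ?_
  simp only [flipMap]
  split_ifs <;> simp_all

theorem tame_signAvg {g : (Fin n → ℝ) → ℝ} (hg : Tame g) : Tame (signAvg g) := by
  obtain ⟨c, hc⟩ := hg.const_outside
  refine ⟨?_, c, ?_⟩
  · refine (ContDiff.sum fun S _ => ?_).div_const _
    have e : (fun y => g (flipMap S y)) = g ∘ flipL S := funext fun y => by simp [flipL_apply]
    rw [e]
    exact hg.smooth.comp (flipL S).contDiff
  · set T := tsupport fun x => g x - c with hT
    have hK : IsCompact (⋃ S : Fin n → Bool, flipMap S '' T) :=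
      isCompact_iUnion fun S => hc.image (continuous_flipMap S)
    refine HasCompactSupport.intro hK fun x hx => ?_
    have h : ∀ S : Fin n → Bool, g (flipMap S x) = c := fun S => by
      by_contra h
      refine hx (Set.mem_iUnion.2 ⟨S, flipMap S x, subset_closure ?_, flipMap_flipMap S x⟩)
      simpa [sub_eq_zero] using h
    simp [signAvg, h]

theorem signAvg_nonneg {g : (Fin n → ℝ) → ℝ} (hg : ∀ x, 0 ≤ g x) (x : Fin n → ℝ) :
    0 ≤ signAvg g x := div_nonneg (Finset.sum_nonneg fun S _ => hg _) (by positivity)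

theorem pd_signAvg {g : (Fin n → ℝ) → ℝ} (hg : Differentiable ℝ g) (i : Fin n) (x : Fin n → ℝ) :
    pd i (signAvg g) x
      = (∑ S : Fin n → Bool, (if S i then -1 else 1 : ℝ) * pd i g (flipMap S x)) / 2 ^ n := by
  have hd : ∀ S : Fin n → Bool, Differentiable ℝ fun y => g (flipMap S y) := fun S => by
    have e : (fun y => g (flipMap S y)) = g ∘ flipL S := funext fun y => by simp [flipL_apply]
    rw [e]
    exact hg.comp (flipL S).differentiable
  have e : signAvg g = fun y => ((2 : ℝ) ^ n)⁻¹ * ∑ S : Fin n → Bool, g (flipMap S y) :=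
    funext fun y => by rw [signAvg, div_eq_inv_mul]
  rw [e, pd, fderiv_const_mul (DifferentiableAt.fun_sum fun S _ => hd S x),
    fderiv_fun_sum fun S _ => hd S x]
  simp only [FunLike.coe_smul, Pi.smul_apply, smul_eq_mul, ContinuousLinearMap.coe_sum',
    Finset.sum_apply]
  rw [div_eq_inv_mul]
  congr 1
  exact Finset.sum_congr rfl fun S _ => pd_comp_flip hg S i x

/-- The gradient of the root mean square over the signs is at most the mean gradient. -/
theorem gradSq_signAvg_sq {f : (Fin n → ℝ) → ℝ} (hf : Differentiable ℝ f) (x : Fin n → ℝ) :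
    gradSq (signAvg fun y => f y ^ 2) x
      ≤ 4 * signAvg (fun y => f y ^ 2) x * signAvg (gradSq f) x := by
  have hf2 : Differentiable ℝ fun y => f y ^ 2 := hf.pow 2
  have hpd : ∀ i y, pd i (fun y => f y ^ 2) y = 2 * f y * pd i f y := fun i y => by
    simp only [pd]
    rw [fderiv_fun_pow 2 (hf y)]
    simp
  have hN : (0 : ℝ) < 2 ^ n := by positivity
  have e : signAvg (gradSq f) x = (∑ i, ∑ S : Fin n → Bool, pd i f (flipMap S x) ^ 2) / 2 ^ n := by
    rw [signAvg, Finset.sum_comm]
    rfl
  rw [e, Finset.sum_div, Finset.mul_sum]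
  refine Finset.sum_le_sum fun i _ => ?_
  rw [pd_signAvg hf2]
  simp only [hpd, signAvg]
  have hcs := Finset.sum_mul_sq_le_sq_mul_sq (Finset.univ : Finset (Fin n → Bool))
    (fun S => f (flipMap S x)) (fun S => (if S i then -1 else 1 : ℝ) * pd i f (flipMap S x))
  have e1 : ∀ S : Fin n → Bool, ((if S i then -1 else 1 : ℝ) * pd i f (flipMap S x)) ^ 2
      = pd i f (flipMap S x) ^ 2 := fun S => by split_ifs <;> ring
  simp only [e1] at hcs
  have e2 : ∑ S : Fin n → Bool, (if S i then -1 else 1 : ℝ)
        * (2 * f (flipMap S x) * pd i f (flipMap S x))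
      = 2 * ∑ S : Fin n → Bool,
        f (flipMap S x) * ((if S i then -1 else 1 : ℝ) * pd i f (flipMap S x)) := by
    rw [Finset.mul_sum]
    exact Finset.sum_congr rfl fun S _ => by ring
  rw [e2, div_pow, mul_pow, div_le_iff₀ (by positivity)]
  refine (mul_le_mul_of_nonneg_left hcs (by positivity)).trans_eq ?_
  field_simp
  ring

theorem tendsto_ent_add_const {μ : Measure (Fin n → ℝ)} [IsProbabilityMeasure μ]
    {h : (Fin n → ℝ) → ℝ} (hh : Tame h) :
    Tendsto (fun ε : ℝ => ent μ fun x => h x + ε) (𝓝[>] 0) (𝓝 (ent μ h)) := by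
  obtain ⟨C, hC⟩ := hh.bounded
  obtain ⟨D, hD⟩ := (isCompact_Icc (a := -C - 1) (b := C + 1)).exists_bound_of_continuousOn
    Real.continuous_mul_log.continuousOn
  have h1 : Tendsto (fun ε : ℝ => ∫ x, (h x + ε) * Real.log (h x + ε) ∂μ) (𝓝 0)
      (𝓝 (∫ x, h x * Real.log (h x) ∂μ)) := by
    refine tendsto_integral_filter_of_dominated_convergence (fun _ => D)
      (Eventually.of_forall fun ε =>
        (Real.continuous_mul_log.comp (hh.continuous.add continuous_const)).aestronglyMeasurable)
      ?_ (integrable_const D) (Eventually.of_forall fun x => ?_)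
    · filter_upwards [Icc_mem_nhds (show (-1 : ℝ) < 0 by norm_num) zero_lt_one] with ε hε
      refine Eventually.of_forall fun x => hD _ ?_
      have := abs_le.1 (hC x)
      constructor <;> linarith [hε.1, hε.2]
    · exact (Real.continuous_mul_log.comp (continuous_const.add continuous_id)).tendsto' _ _
        (by simp)
  have h2 : Tendsto (fun ε : ℝ => ∫ x, (h x + ε) ∂μ) (𝓝 0) (𝓝 (∫ x, h x ∂μ)) := by
    have e : (fun ε : ℝ => ∫ x, (h x + ε) ∂μ) = fun ε => (∫ x, h x ∂μ) + ε := funext fun ε => by
      rw [integral_add hh.integrable (integrable_const ε)]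
      simp
    rw [e]
    exact (continuous_const.add continuous_id).tendsto' _ _ (by simp)
  exact (h1.sub ((Real.continuous_mul_log.tendsto _).comp h2)).mono_left nhdsWithin_le_nhds

/-- The inequality for even functions in terms of the original function. -/
theorem ent_signAvg_le (hρ : GoodDensity ρ) {R : ℝ} (hR : 0 < R)
    (hint : Integrable (excess R) (law ρ)) {f : (Fin n → ℝ) → ℝ} (hf : Tame f) :
    ent (law ρ) (signAvg fun x => f x ^ 2) ≤ 64 * R ^ 2 * energy (law ρ) f
      + 1 / (8 * R ^ 2) * ((∫ x, f x ^ 2 * excess R x ∂law ρ)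
        + (∫ x, f x ^ 2 ∂law ρ) * ∫ x, excess R x ∂law ρ) := by
  haveI := isProbability_law hρ
  set h := signAvg fun x => f x ^ 2 with hh
  have hT : Tame h := tame_signAvg hf.sq
  have h0 : ∀ x, 0 ≤ h x := signAvg_nonneg fun x => sq_nonneg _
  have heven : ∀ i x, h (refl i x) = h x := signAvg_even _
  set M1 := ∫ x, excess R x ∂law ρ
  have hgI : Integrable (gradSq f) (law ρ) := hf.integrable_gradSq
  have havg : Integrable (signAvg (gradSq f)) (law ρ) := by
    obtain ⟨C, hC⟩ := hf.bounded_gradSq
    refine Integrable.of_bound ((continuous_finsetSum _ fun S _ =>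
      hf.continuous_gradSq.comp (continuous_flipMap S)).div_const _).aestronglyMeasurable C
      (Eventually.of_forall fun x => ?_)
    rw [Real.norm_eq_abs, abs_of_nonneg (signAvg_nonneg (g := gradSq f)
      (fun y => Finset.sum_nonneg fun i _ => sq_nonneg _) x), signAvg, div_le_iff₀ (by positivity)]
    calc ∑ S : Fin n → Bool, gradSq f (flipMap S x) ≤ ∑ _S : Fin n → Bool, C :=
          Finset.sum_le_sum fun S _ => hC _
      _ = C * 2 ^ n := by simp [mul_comm]
  have hprodI : Integrable (fun x => f x ^ 2 * excess R x) (law ρ) := by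
    obtain ⟨C, hC⟩ := hf.sq.bounded
    exact hint.bdd_mul (hf.continuous.pow 2).aestronglyMeasurable
      (Eventually.of_forall fun x => by rw [Real.norm_eq_abs]; exact hC x)
  have hP : ∫ x, h x ∂law ρ = ∫ x, f x ^ 2 ∂law ρ := integral_signAvg hρ hf.sq.integrable
  have hE : ∫ x, h x * excess R x ∂law ρ = ∫ x, f x ^ 2 * excess R x ∂law ρ := by
    rw [← integral_signAvg hρ hprodI]
    congr 1
    funext x
    simp only [hh, signAvg, excess_flip]
    rw [← Finset.sum_mul]
    ring
  have hhI : Integrable (fun x => h x * excess R x) (law ρ) := by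
    obtain ⟨C, hC⟩ := hT.bounded
    exact hint.bdd_mul hT.continuous.aestronglyMeasurable
      (Eventually.of_forall fun x => by rw [Real.norm_eq_abs]; exact hC x)
  have hbound : ∀ ε : ℝ, 0 < ε → ent (law ρ) (fun x => h x + ε) ≤ 64 * R ^ 2 * energy (law ρ) f
      + 1 / (8 * R ^ 2) * ((∫ x, f x ^ 2 * excess R x ∂law ρ) + ε * M1
        + ((∫ x, f x ^ 2 ∂law ρ) + ε) * M1) := by
    intro ε hε
    have hpos : ∀ x, 0 < h x + ε := fun x => add_pos_of_nonneg_of_pos (h0 x) hε
    set G : (Fin n → ℝ) → ℝ := fun x => Real.log (h x + ε) with hG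
    have hφ : ContDiffOn ℝ (⊤ : ℕ∞) (fun t : ℝ => Real.log (t + ε)) (Set.Ioi (-ε)) :=
      (contDiff_id.add contDiff_const).contDiffOn.log fun t (ht : -ε < t) =>
        ne_of_gt (show (0 : ℝ) < id t + ε by simp only [id]; linarith)
    have hGT : Tame G := hT.comp_smooth hφ fun x => by
      show -ε < h x
      linarith [h0 x]
    have hexp : ∀ x, Real.exp (G x) = h x + ε := fun x => Real.exp_log (hpos x)
    have hGeven : ∀ i x, G (refl i x) = G x := fun i x => by simp only [hG, heven]
    obtain ⟨B, hB⟩ := hGT.bounded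
    obtain ⟨M, hM⟩ := hGT.bounded_gradSq
    obtain ⟨K, hK0, hK⟩ := hGT.taylor
    have hcore := core hρ hR hK0 hint hGT.continuous.measurable hB hGeven
      hGT.continuous_gradSq.measurable (gradSq_even hGT.differentiable hGeven) hM hK
    simp only [hexp] at hcore
    have hpdG : ∀ i x, pd i G x = pd i h x / (h x + ε) := fun i x => by
      simp only [pd, hG]
      rw [fderiv.log ((hT.differentiable x).add_const ε) (hpos x).ne', fderiv_add_const]
      simp [div_eq_inv_mul]
    have hS : ∀ x, gradSq G x * (h x + ε) ≤ 4 * signAvg (gradSq f) x := fun x => by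
      have hA := gradSq_signAvg_sq hf.differentiable x
      rw [← hh] at hA
      have hav := signAvg_nonneg (g := gradSq f)
        (fun y => Finset.sum_nonneg fun i _ => sq_nonneg _) x
      have e : gradSq G x * (h x + ε) = gradSq h x / (h x + ε) := by
        have := hpos x
        simp only [gradSq, hpdG, div_pow, ← Finset.sum_div]
        field_simp
      rw [e, div_le_iff₀ (hpos x)]
      refine hA.trans ?_
      have := mul_nonneg hav hε.le
      linarith
    have h1 : ∫ x, gradSq G x * (h x + ε) ∂law ρ ≤ 4 * energy (law ρ) f := by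
      rw [energy, ← integral_signAvg hρ hgI, ← integral_const_mul]
      exact integral_mono_of_nonneg
        (Eventually.of_forall fun x => mul_nonneg (Finset.sum_nonneg fun i _ => sq_nonneg _)
          (hpos x).le) (havg.const_mul 4) (Eventually.of_forall hS)
    have h2 : ∫ x, excess R x * (h x + ε) ∂law ρ
        = (∫ x, f x ^ 2 * excess R x ∂law ρ) + ε * M1 := by
      have e : (fun x => excess R x * (h x + ε)) = fun x => h x * excess R x + ε * excess R x :=
        funext fun x => by ring
      rw [e, integral_add hhI (hint.const_mul ε), integral_const_mul, hE]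
    have h3 : ∫ x, (h x + ε) ∂law ρ = (∫ x, f x ^ 2 ∂law ρ) + ε := by
      rw [integral_add hT.integrable (integrable_const ε), hP]
      simp
    rw [h2, h3] at hcore
    have := mul_le_mul_of_nonneg_left h1 (by positivity : (0 : ℝ) ≤ 16 * R ^ 2)
    linarith
  have hlim := tendsto_ent_add_const (μ := law ρ) hT
  have hlim2 : Tendsto (fun ε : ℝ => 64 * R ^ 2 * energy (law ρ) f
      + 1 / (8 * R ^ 2) * ((∫ x, f x ^ 2 * excess R x ∂law ρ) + ε * M1
        + ((∫ x, f x ^ 2 ∂law ρ) + ε) * M1)) (𝓝[>] 0)
      (𝓝 (64 * R ^ 2 * energy (law ρ) f + 1 / (8 * R ^ 2)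
        * ((∫ x, f x ^ 2 * excess R x ∂law ρ) + (∫ x, f x ^ 2 ∂law ρ) * M1))) :=
    tendsto_nhdsWithin_of_tendsto_nhds (Continuous.tendsto' (by fun_prop) _ _ (by simp))
  exact le_of_tendsto_of_tendsto hlim hlim2 (eventually_nhdsWithin_of_forall hbound)

/-- The logarithmic Sobolev inequality with defect `2L`. -/
theorem defective (hρ : GoodDensity ρ) {R L : ℝ} (hR : 0 < R)
    (hL : ∫⁻ x, ENNReal.ofReal (Real.exp (10 / R ^ 2 * excess R x)) ∂law ρ
      ≤ ENNReal.ofReal (Real.exp L)) {f : (Fin n → ℝ) → ℝ} (hf : Tame f) :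
    ent (law ρ) (fun x => f x ^ 2)
      ≤ 144 * R ^ 2 * energy (law ρ) f + 2 * L * ∫ x, f x ^ 2 ∂law ρ := by
  haveI := isProbability_law hρ
  set Y : (Fin n → ℝ) → ℝ := fun x => 10 / R ^ 2 * excess R x with hY
  have hYm : Measurable Y := (measurable_excess R).const_mul _
  have hYI : Integrable Y (law ρ) := by
    refine Integrable.mono' (g := fun x => Real.exp (Y x)) ⟨hYm.exp.aestronglyMeasurable, ?_⟩
      hYm.aestronglyMeasurable (Eventually.of_forall fun x => ?_)
    · rw [hasFiniteIntegral_iff_ofReal (Eventually.of_forall fun x => (Real.exp_pos _).le)]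
      exact lt_of_le_of_lt hL ENNReal.ofReal_lt_top
    · rw [Real.norm_eq_abs, abs_of_nonneg (mul_nonneg (by positivity) (excess_nonneg R x))]
      linarith [Real.add_one_le_exp (Y x)]
  have hint : Integrable (excess R) (law ρ) :=
    (hYI.const_mul (R ^ 2 / 10)).congr (Eventually.of_forall fun x => by
      simp only [hY]
      field_simp)
  have hsq := hf.sq
  have hmulI : Integrable (fun x => f x ^ 2 * Y x) (law ρ) := by
    obtain ⟨C, hC⟩ := hsq.bounded
    exact hYI.bdd_mul hsq.continuous.aestronglyMeasurable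
      (Eventually.of_forall fun x => by rw [Real.norm_eq_abs]; exact hC x)
  have h1 := ent_le_ent_signAvg hρ hR hint hf
  have h2 := ent_signAvg_le hρ hR hint hf
  have hlog : Integrable (fun x => f x ^ 2 * Real.log (f x ^ 2)) (law ρ) :=
    hsq.integrable_comp Real.continuous_mul_log
  have h3 := integral_mul_le_ent (fun x => sq_nonneg (f x)) hsq.integrable hlog hmulI hYm hL
  have h4 := integral_mul_le_ent (μ := law ρ) (v := fun _ => (1 : ℝ)) (fun _ => zero_le_one)
    (integrable_const _) (by simp) (by simpa using hYI) hYm hL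
  simp only [one_mul, ent, Real.log_one, integral_const, probReal_univ, smul_eq_mul, mul_one,
    mul_zero, sub_zero, zero_add, one_smul] at h4
  have e1 : ∫ x, f x ^ 2 * Y x ∂law ρ = 10 / R ^ 2 * ∫ x, f x ^ 2 * excess R x ∂law ρ := by
    rw [← integral_const_mul]
    congr 1
    funext x
    simp only [hY]
    ring
  have e2 : ∫ x, Y x ∂law ρ = 10 / R ^ 2 * ∫ x, excess R x ∂law ρ := integral_const_mul _ _
  rw [e1] at h3
  rw [e2] at h4
  set W := ∫ x, f x ^ 2 * excess R x ∂law ρ
  set M1 := ∫ x, excess R x ∂law ρ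
  set P := ∫ x, f x ^ 2 ∂law ρ
  set I := energy (law ρ) f
  have hP0 : 0 ≤ P := integral_nonneg fun x => sq_nonneg _
  have hW0 : 0 ≤ W := integral_nonneg fun x => mul_nonneg (sq_nonneg _) (excess_nonneg R x)
  have hM0 : 0 ≤ M1 := integral_nonneg fun x => excess_nonneg R x
  have hI0 : 0 ≤ I := integral_nonneg fun x => Finset.sum_nonneg fun i _ => sq_nonneg _
  have h5 : P * (10 / R ^ 2 * M1) ≤ P * L := mul_le_mul_of_nonneg_left h4 hP0
  have hr : 1 / (8 * R ^ 2) * (W + P * M1) + 4 / R ^ 2 * W
      ≤ 1 / 2 * (10 / R ^ 2 * W) + 1 / 10 * (P * (10 / R ^ 2 * M1)) := by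
    have e : 1 / 2 * (10 / R ^ 2 * W) + 1 / 10 * (P * (10 / R ^ 2 * M1))
        - (1 / (8 * R ^ 2) * (W + P * M1) + 4 / R ^ 2 * W)
        = 7 / 8 * (W / R ^ 2) + 7 / 8 * (P * M1 / R ^ 2) := by
      field_simp
      ring
    have : 0 ≤ 7 / 8 * (W / R ^ 2) + 7 / 8 * (P * M1 / R ^ 2) := by positivity
    linarith
  have hPL : 0 ≤ P * L := le_trans (by positivity) h5
  linarith

end

end Vale.Agent.P245
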