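import Vale.Agent.P254.Sym.PL

/-!
# P245: unconditional subgaussian log-concave measures

Definitions shared by the proof of the logarithmic Sobolev inequality.
-/

open MeasureTheory
open scoped ENNReal

namespace Vale.Agent.P245

noncomputable section

variable {n : ℕ}

/-- The measure with Lebesgue density `ρ`. -/
def law (ρ : (Fin n → ℝ) → ℝ) : Measure (Fin n → ℝ) :=
  (volume : Measure (Fin n → ℝ)).withDensity fun x => ENNReal.ofReal (ρ x)

/-- The reflection in the `i`-th coordinate hyperplane. -/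
def refl (i : Fin n) (x : Fin n → ℝ) : Fin n → ℝ := Function.update x i (-x i)

/-- A log-concave probability density invariant under every coordinate reflection. -/
structure GoodDensity (ρ : (Fin n → ℝ) → ℝ) : Prop where
  meas : Measurable ρ
  nonneg : ∀ x, 0 ≤ ρ x
  mass : ∫⁻ x, ENNReal.ofReal (ρ x) = 1
  logconcave : ∀ x y (s t : ℝ), 0 < s → 0 < t → s + t = 1 →
    ρ x ^ s * ρ y ^ t ≤ ρ (s • x + t • y)
  even : ∀ i x, ρ (refl i x) = ρ x

/-- Linear `a`-subgaussianity. -/
def Subgauss (μ : Measure (Fin n → ℝ)) (a : ℝ) : Prop :=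
  ∀ θ : Fin n → ℝ, ∑ i, θ i ^ 2 = 1 →
    ∫⁻ x, ENNReal.ofReal (Real.exp ((∑ i, θ i * x i) ^ 2 / a ^ 2)) ∂μ ≤ 2

/-- The partial derivative in the `i`-th coordinate. -/
def pd (i : Fin n) (f : (Fin n → ℝ) → ℝ) (x : Fin n → ℝ) : ℝ := fderiv ℝ f x (Pi.single i 1)

/-- The squared Euclidean norm of the gradient. -/
def gradSq (f : (Fin n → ℝ) → ℝ) (x : Fin n → ℝ) : ℝ := ∑ i, pd i f x ^ 2

/-- The Dirichlet form. -/
def energy (μ : Measure (Fin n → ℝ)) (f : (Fin n → ℝ) → ℝ) : ℝ := ∫ x, gradSq f x ∂μ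

/-- The entropy of a nonnegative function. -/
def ent (μ : Measure (Fin n → ℝ)) (h : (Fin n → ℝ) → ℝ) : ℝ :=
  (∫ x, h x * Real.log (h x) ∂μ) - (∫ x, h x ∂μ) * Real.log (∫ x, h x ∂μ)

/-- The sum of the squares of the coordinates which exceed `R`. -/
def excess (R : ℝ) (x : Fin n → ℝ) : ℝ := ∑ i, if R < |x i| then x i ^ 2 else 0

/-- Smooth functions which are constant outside a compact set. -/
structure Tame (f : (Fin n → ℝ) → ℝ) : Prop where
  smooth : ContDiff ℝ (⊤ : ℕ∞) f
  const_outside : ∃ c : ℝ, HasCompactSupport fun x => f x - c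

end

end Vale.Agent.P245
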