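import Vale.Agent.P245.Abs

/-! # P245: consequences of linear subgaussianity -/

open MeasureTheory ProbabilityTheory
open scoped ENNReal NNReal

namespace Vale.Agent.P245

noncomputable section

variable {n : ℕ} {ρ : (Fin n → ℝ) → ℝ} {a : ℝ}

lemma law_neg (hρ : GoodDensity ρ) {F : (Fin n → ℝ) → ℝ≥0∞} (hF : Measurable F) :
    ∫⁻ x, F (-x) ∂law ρ = ∫⁻ x, F x ∂law ρ := by
  have hev : ∀ x, ρ (-x) = ρ x := fun x => by
    rw [← even_abs hρ.even (-x), ← even_abs hρ.even x]
    simp
  have hp : MeasurePreserving (fun x : Fin n → ℝ => -x) volume volume :=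
    Measure.measurePreserving_neg volume
  have hm := hρ.meas.ennreal_ofReal
  rw [law, lintegral_withDensity_eq_lintegral_mul _ hm hF,
    lintegral_withDensity_eq_lintegral_mul _ hm (g := fun x => F (-x)) (hF.comp hp.measurable)]
  conv_rhs => rw [← hp.lintegral_comp (hm.mul hF)]
  simp only [Pi.mul_apply, hev]

lemma subgauss_scaled (hs : Subgauss (law ρ) a) (θ : Fin n → ℝ) (hθ : 0 < ∑ i, θ i ^ 2) :
    ∫⁻ x, ENNReal.ofReal (Real.exp ((∑ i, θ i * x i) ^ 2 / (a ^ 2 * ∑ i, θ i ^ 2))) ∂law ρ
      ≤ 2 := by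
  set s := Real.sqrt (∑ i, θ i ^ 2) with hsd
  have hspos : 0 < s := Real.sqrt_pos.2 hθ
  have hss : s ^ 2 = ∑ i, θ i ^ 2 := Real.sq_sqrt hθ.le
  have h := hs (fun i => θ i / s) (by
    simp only [div_pow]
    rw [← Finset.sum_div, ← hss]
    field_simp)
  refine le_of_eq_of_le ?_ h
  refine lintegral_congr fun x => ?_
  congr 2
  have : ∑ i, θ i / s * x i = (∑ i, θ i * x i) / s := by
    rw [Finset.sum_div]
    exact Finset.sum_congr rfl fun i _ => by ring
  rw [this, ← hss, div_pow]
  field_simp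

/-- The exponential moments of linear functionals. -/
lemma exp_linear_le (hρ : GoodDensity ρ) (ha : 0 < a) (hs : Subgauss (law ρ) a)
    (θ : Fin n → ℝ) :
    ∫⁻ x, ENNReal.ofReal (Real.exp (∑ i, θ i * x i)) ∂law ρ
      ≤ ENNReal.ofReal (Real.exp (a ^ 2 * ∑ i, θ i ^ 2)) := by
  have := isProbability_law hρ
  rcases (Finset.sum_nonneg fun i _ => sq_nonneg (θ i)).eq_or_lt with h0 | hpos
  · have hz : ∀ i, θ i = 0 := fun i => by
      have := (Finset.sum_eq_zero_iff_of_nonneg fun j _ => sq_nonneg (θ j)).1 h0.symm i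
        (Finset.mem_univ i)
      simpa using this
    simp [hz]
  set T := a ^ 2 * ∑ i, θ i ^ 2 with hT
  have hT0 : 0 < T := by positivity
  have hsc := subgauss_scaled hs θ hpos
  set Y : (Fin n → ℝ) → ℝ := fun x => ∑ i, θ i * x i with hY
  have hYm : Measurable Y := by fun_prop
  rcases le_or_gt T 2 with hle | hgt
  · -- symmetrise and use convexity
    have hp0 : 0 ≤ T / 2 := by positivity
    have hp1 : 0 ≤ 1 - T / 2 := by linarith
    have hm : Measurable fun x => ENNReal.ofReal (Real.exp (Y x)) := by fun_prop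
    have key : ∀ x, ENNReal.ofReal (Real.exp (Y x)) + ENNReal.ofReal (Real.exp (-Y x))
        ≤ ENNReal.ofReal (2 * (1 - T / 2))
          + ENNReal.ofReal T * ENNReal.ofReal (Real.exp (Y x ^ 2 / T)) := by
      intro x
      rw [← ENNReal.ofReal_add (Real.exp_pos _).le (Real.exp_pos _).le,
        ← ENNReal.ofReal_mul hT0.le, ← ENNReal.ofReal_add (by linarith) (by positivity)]
      refine ENNReal.ofReal_le_ofReal ?_
      have h1 : Real.exp (Y x) + Real.exp (-Y x) ≤ 2 * Real.exp (Y x ^ 2 / 2) := by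
        have := Real.cosh_le_exp_half_sq (Y x)
        rw [Real.cosh_eq] at this
        linarith
      have h2 := convexOn_exp.2 (Set.mem_univ (0 : ℝ)) (Set.mem_univ (Y x ^ 2 / T)) hp1 hp0
        (by ring)
      simp only [smul_eq_mul, mul_zero, zero_add, Real.exp_zero, mul_one] at h2
      rw [show T / 2 * (Y x ^ 2 / T) = Y x ^ 2 / 2 by field_simp] at h2
      nlinarith [h1, h2]
    have h2 : 2 * ∫⁻ x, ENNReal.ofReal (Real.exp (Y x)) ∂law ρ
        ≤ ENNReal.ofReal (2 * (1 - T / 2)) + ENNReal.ofReal T * 2 := by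
      calc 2 * ∫⁻ x, ENNReal.ofReal (Real.exp (Y x)) ∂law ρ
          = ∫⁻ x, (ENNReal.ofReal (Real.exp (Y x)) + ENNReal.ofReal (Real.exp (-Y x))) ∂law ρ := by
            have hneg : ∫⁻ x, ENNReal.ofReal (Real.exp (-Y x)) ∂law ρ
                = ∫⁻ x, ENNReal.ofReal (Real.exp (Y x)) ∂law ρ := by
              rw [← law_neg hρ hm]
              refine lintegral_congr fun x => ?_
              simp [Y, Finset.sum_neg_distrib]
            rw [lintegral_add_left hm, hneg, two_mul]
        _ ≤ ∫⁻ x, (ENNReal.ofReal (2 * (1 - T / 2))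
              + ENNReal.ofReal T * ENNReal.ofReal (Real.exp (Y x ^ 2 / T))) ∂law ρ :=
            lintegral_mono key
        _ ≤ _ := by
            rw [lintegral_add_left measurable_const, lintegral_const, measure_univ, mul_one,
              lintegral_const_mul _ (by fun_prop)]
            exact add_le_add le_rfl (mul_le_mul' le_rfl hsc)
    have h3 : ENNReal.ofReal (2 * (1 - T / 2)) + ENNReal.ofReal T * 2
        ≤ 2 * ENNReal.ofReal (Real.exp T) := by
      rw [← ENNReal.ofReal_ofNat 2, ← ENNReal.ofReal_mul hT0.le,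
        ← ENNReal.ofReal_add (by linarith) (by positivity), ← ENNReal.ofReal_mul (by norm_num)]
      refine ENNReal.ofReal_le_ofReal ?_
      nlinarith [Real.add_one_le_exp T]
    exact (ENNReal.mul_le_mul_iff_right two_ne_zero ENNReal.ofNat_ne_top).1 (h2.trans h3)
  · calc ∫⁻ x, ENNReal.ofReal (Real.exp (Y x)) ∂law ρ
        ≤ ∫⁻ x, ENNReal.ofReal (Real.exp (T / 4))
            * ENNReal.ofReal (Real.exp (Y x ^ 2 / T)) ∂law ρ := by
          refine lintegral_mono fun x => ?_
          rw [← ENNReal.ofReal_mul (Real.exp_pos _).le, ← Real.exp_add]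
          refine ENNReal.ofReal_le_ofReal (Real.exp_le_exp.2 ?_)
          have h : 0 ≤ (Y x - T / 2) ^ 2 / T := by positivity
          have e : (Y x - T / 2) ^ 2 / T = T / 4 + Y x ^ 2 / T - Y x := by field_simp; ring
          linarith
      _ ≤ ENNReal.ofReal (Real.exp (T / 4)) * 2 := by
          rw [lintegral_const_mul _ (by fun_prop)]
          exact mul_le_mul' le_rfl hsc
      _ ≤ _ := by
          rw [← ENNReal.ofReal_ofNat 2, ← ENNReal.ofReal_mul (Real.exp_pos _).le]
          refine ENNReal.ofReal_le_ofReal ?_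
          have h2 : (2 : ℝ) ≤ Real.exp (3 * T / 4) := by
            have := Real.add_one_le_exp (3 * T / 4)
            linarith
          calc Real.exp (T / 4) * 2 ≤ Real.exp (T / 4) * Real.exp (3 * T / 4) :=
                mul_le_mul_of_nonneg_left h2 (Real.exp_pos _).le
            _ = Real.exp T := by rw [← Real.exp_add]; ring_nf

lemma gauss_quarter :
    Integrable (fun g : ℝ => Real.exp (g ^ 2 / 4)) (gaussianReal 0 1) ∧
      ∫ g, Real.exp (g ^ 2 / 4) ∂gaussianReal 0 1 = Real.sqrt 2 := by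
  have heq : ∀ g : ℝ, gaussianPDFReal 0 1 g * Real.exp (g ^ 2 / 4)
      = (Real.sqrt (2 * Real.pi))⁻¹ * Real.exp (-(1/4 : ℝ) * g ^ 2) := by
    intro g
    rw [gaussianPDFReal_def]
    simp only [NNReal.coe_one, mul_one, sub_zero]
    rw [mul_assoc, ← Real.exp_add]
    congr 2
    ring
  constructor
  · rw [gaussianReal_of_var_ne_zero 0 one_ne_zero,
      integrable_withDensity_iff (measurable_gaussianPDF 0 1)
        (ae_of_all _ fun x => ENNReal.ofReal_lt_top)]
    refine ((integrable_exp_neg_mul_sq (by norm_num : (0:ℝ) < 1/4)).const_mul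
      (Real.sqrt (2 * Real.pi))⁻¹).congr (ae_of_all _ fun g => ?_)
    simp only [gaussianPDF, ENNReal.toReal_ofReal (gaussianPDFReal_nonneg 0 1 g)]
    rw [mul_comm (Real.exp _), heq]
  · rw [integral_gaussianReal_eq_integral_smul one_ne_zero]
    simp only [smul_eq_mul, heq]
    rw [integral_const_mul, integral_gaussian, ← Real.sqrt_inv, ← Real.sqrt_mul (by positivity)]
    congr 1
    have := Real.pi_pos
    field_simp
    ring

/-- The exponential moment of the squares of a set of coordinates. -/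
lemma exp_sq_le (hρ : GoodDensity ρ) (ha : 0 < a) (hs : Subgauss (law ρ) a)
    (S : Finset (Fin n)) :
    ∫⁻ x, ENNReal.ofReal (Real.exp (∑ i ∈ S, x i ^ 2 / (8 * a ^ 2))) ∂law ρ
      ≤ ENNReal.ofReal (Real.sqrt 2 ^ S.card) := by
  classical
  have := isProbability_law hρ
  set γ : Measure (Fin n → ℝ) := Measure.pi fun _ => gaussianReal 0 1
  set w : Fin n → ℝ := fun i => if i ∈ S then 1 / (2 * a) else 0 with hw
  -- linearisation
  have hlin : ∀ x : Fin n → ℝ,
      ∫⁻ g, ENNReal.ofReal (Real.exp (∑ i, w i * g i * x i)) ∂γ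
        = ENNReal.ofReal (Real.exp (∑ i ∈ S, x i ^ 2 / (8 * a ^ 2))) := by
    intro x
    have hi : ∀ i, Integrable (fun g : ℝ => Real.exp (w i * x i * g)) (gaussianReal 0 1) :=
      fun i => integrable_exp_mul_gaussianReal _
    have heq : (fun g : Fin n → ℝ => Real.exp (∑ i, w i * g i * x i))
        = fun g => ∏ i, Real.exp (w i * x i * g i) := by
      funext g
      rw [Real.exp_sum]
      exact Finset.prod_congr rfl fun i _ => by ring_nf
    rw [← ofReal_integral_eq_lintegral_ofReal (heq ▸ Integrable.fintype_prod hi)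
      (ae_of_all _ fun g => (Real.exp_pos _).le), heq,
      integral_fintype_prod_eq_prod (fun i (g : ℝ) => Real.exp (w i * x i * g))]
    congr 1
    rw [Real.exp_sum, ← Finset.prod_subset (Finset.subset_univ S)]
    · refine Finset.prod_congr rfl fun i hi => ?_
      have h := congrFun (mgf_id_gaussianReal (μ := 0) (v := 1)) (w i * x i)
      rw [mgf] at h
      simp only [id_eq] at h
      rw [h]
      simp only [hw, if_pos hi, NNReal.coe_one]
      congr 1
      field_simp
      ring
    · intro i _ hi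
      simp [hw, hi]
  have hsum : ∀ g : Fin n → ℝ, a ^ 2 * ∑ i, (w i * g i) ^ 2 = ∑ i ∈ S, g i ^ 2 / 4 := by
    intro g
    rw [Finset.mul_sum, ← Finset.sum_subset (Finset.subset_univ S)]
    · refine Finset.sum_congr rfl fun i hi => ?_
      simp only [hw, if_pos hi]
      field_simp
      ring
    · intro i _ hi
      simp [hw, hi]
  calc ∫⁻ x, ENNReal.ofReal (Real.exp (∑ i ∈ S, x i ^ 2 / (8 * a ^ 2))) ∂law ρ
      = ∫⁻ x, ∫⁻ g, ENNReal.ofReal (Real.exp (∑ i, w i * g i * x i)) ∂γ ∂law ρ :=
        lintegral_congr fun x => (hlin x).symm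
    _ = ∫⁻ g, ∫⁻ x, ENNReal.ofReal (Real.exp (∑ i, w i * g i * x i)) ∂law ρ ∂γ :=
        lintegral_lintegral_swap (by fun_prop)
    _ ≤ ∫⁻ g, ENNReal.ofReal (Real.exp (∑ i ∈ S, g i ^ 2 / 4)) ∂γ := by
        refine lintegral_mono fun g => (exp_linear_le hρ ha hs fun i => w i * g i).trans ?_
        rw [hsum]
    _ = ENNReal.ofReal (Real.sqrt 2 ^ S.card) := by
        obtain ⟨hint, hval⟩ := gauss_quarter
        have hi : ∀ i, Integrable (fun g : ℝ => if i ∈ S then Real.exp (g ^ 2 / 4) else 1)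
            (gaussianReal 0 1) := fun i => by
          by_cases h : i ∈ S
          · simpa [h] using hint
          · simp only [h, if_false]
            exact integrable_const _
        have heq : (fun g : Fin n → ℝ => Real.exp (∑ i ∈ S, g i ^ 2 / 4))
            = fun g => ∏ i, if i ∈ S then Real.exp (g i ^ 2 / 4) else 1 := by
          funext g
          rw [Real.exp_sum, Finset.prod_ite_mem, Finset.univ_inter]
        rw [← ofReal_integral_eq_lintegral_ofReal (heq ▸ Integrable.fintype_prod hi)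
          (ae_of_all _ fun g => (Real.exp_pos _).le), heq,
          integral_fintype_prod_eq_prod (fun i (g : ℝ) => if i ∈ S then Real.exp (g ^ 2 / 4) else 1)]
        congr 1
        rw [← Finset.prod_const, ← Finset.univ_inter S, ← Finset.prod_ite_mem]
        refine Finset.prod_congr rfl fun i _ => ?_
        by_cases h : i ∈ S <;> simp [h, hval]

/-- The squares of the large coordinates have a tiny exponential moment. -/
theorem excess_exp_moment (hρ : GoodDensity ρ) (ha : 0 < a) (hs : Subgauss (law ρ) a) {R : ℝ}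
    (hR : 0 < R) (hRa : 160 * a ^ 2 ≤ R ^ 2) :
    ∫⁻ x, ENNReal.ofReal (Real.exp (10 / R ^ 2 * excess R x)) ∂law ρ
      ≤ ENNReal.ofReal (Real.exp (2 * n * Real.exp (-(R ^ 2 / (16 * a ^ 2))))) := by
  classical
  set ε := Real.exp (-(R ^ 2 / (16 * a ^ 2))) with hε
  have hε0 : 0 < ε := Real.exp_pos _
  have hd : 10 / R ^ 2 + 1 / (16 * a ^ 2) ≤ 1 / (8 * a ^ 2) := by
    have : 10 / R ^ 2 ≤ 10 / (160 * a ^ 2) :=
      div_le_div_of_nonneg_left (by norm_num) (by positivity) hRa
    have e : 10 / (160 * a ^ 2) + 1 / (16 * a ^ 2) = 1 / (8 * a ^ 2) := by field_simp; ring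
    linarith
  -- one coordinate
  have hone : ∀ t : ℝ, Real.exp (10 / R ^ 2 * if R < |t| then t ^ 2 else 0)
      ≤ 1 + ε * Real.exp (t ^ 2 / (8 * a ^ 2)) := by
    intro t
    split_ifs with h
    · rw [hε, ← Real.exp_add]
      refine le_trans (Real.exp_le_exp.2 ?_) (le_add_of_nonneg_left zero_le_one)
      have h2 : R ^ 2 ≤ t ^ 2 := by
        rw [← sq_abs t]
        exact pow_le_pow_left₀ hR.le h.le 2
      have h3 := mul_le_mul_of_nonneg_right hd (sq_nonneg t)
      have h4 : R ^ 2 / (16 * a ^ 2) ≤ 1 / (16 * a ^ 2) * t ^ 2 := by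
        rw [div_mul_eq_mul_div, one_mul]
        gcongr
      have h5 : t ^ 2 / (8 * a ^ 2) = 1 / (8 * a ^ 2) * t ^ 2 := by ring
      linarith
    · rw [mul_zero, Real.exp_zero]
      exact le_add_of_nonneg_right (by positivity)
  have hexp : ∀ x : Fin n → ℝ, Real.exp (10 / R ^ 2 * excess R x)
      ≤ ∑ S ∈ (Finset.univ : Finset (Fin n)).powerset,
          ε ^ S.card * Real.exp (∑ i ∈ S, x i ^ 2 / (8 * a ^ 2)) := by
    intro x
    rw [excess, Finset.mul_sum, Real.exp_sum]
    refine (Finset.prod_le_prod (fun i _ => (Real.exp_pos _).le) fun i _ => hone (x i)).trans ?_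
    rw [Finset.prod_one_add]
    refine le_of_eq (Finset.sum_congr rfl fun S _ => ?_)
    rw [Finset.prod_mul_distrib, Finset.prod_const, Real.exp_sum]
  calc ∫⁻ x, ENNReal.ofReal (Real.exp (10 / R ^ 2 * excess R x)) ∂law ρ
      ≤ ∫⁻ x, ∑ S ∈ (Finset.univ : Finset (Fin n)).powerset, ENNReal.ofReal (ε ^ S.card)
          * ENNReal.ofReal (Real.exp (∑ i ∈ S, x i ^ 2 / (8 * a ^ 2))) ∂law ρ := by
        refine lintegral_mono fun x => (ENNReal.ofReal_le_ofReal (hexp x)).trans (le_of_eq ?_)
        rw [ENNReal.ofReal_sum_of_nonneg (fun S _ => by positivity)]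
        exact Finset.sum_congr rfl fun S _ => ENNReal.ofReal_mul (by positivity)
    _ ≤ ∑ S ∈ (Finset.univ : Finset (Fin n)).powerset, ENNReal.ofReal (ε ^ S.card)
          * ENNReal.ofReal (Real.sqrt 2 ^ S.card) := by
        rw [lintegral_finsetSum _ (fun S _ => by fun_prop)]
        refine Finset.sum_le_sum fun S _ => ?_
        rw [lintegral_const_mul _ (by fun_prop)]
        exact mul_le_mul' le_rfl (exp_sq_le hρ ha hs S)
    _ = ENNReal.ofReal ((1 + ε * Real.sqrt 2) ^ n) := by
        have hp : (1 + ε * Real.sqrt 2) ^ n = ∑ S ∈ (Finset.univ : Finset (Fin n)).powerset,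
            ε ^ S.card * Real.sqrt 2 ^ S.card := by
          have h := Finset.prod_one_add (f := fun _ : Fin n => ε * Real.sqrt 2) Finset.univ
          simp only [Finset.prod_const, Finset.card_univ, Fintype.card_fin, mul_pow] at h
          exact h
        rw [hp, ENNReal.ofReal_sum_of_nonneg (fun S _ => by positivity)]
        exact Finset.sum_congr rfl fun S _ => (ENNReal.ofReal_mul (by positivity)).symm
    _ ≤ _ := by
        refine ENNReal.ofReal_le_ofReal ?_
        have h2 : Real.sqrt 2 ≤ 2 := Real.sqrt_le_iff.2 ⟨by norm_num, by norm_num⟩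
        calc (1 + ε * Real.sqrt 2) ^ n ≤ Real.exp (ε * 2) ^ n := by
              refine pow_le_pow_left₀ (by positivity) ?_ n
              nlinarith [Real.add_one_le_exp (ε * 2)]
          _ = _ := by rw [← Real.exp_nat_mul]; ring_nf

/-- Some coordinate is large with small probability. -/
theorem measure_exceed_le (hρ : GoodDensity ρ) (ha : 0 < a) (hs : Subgauss (law ρ) a) {R : ℝ}
    (hR : 0 < R) :
    law ρ {x | ∃ i, R < |x i|} ≤ ENNReal.ofReal (2 * n * Real.exp (-(R ^ 2 / a ^ 2))) := by
  classical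
  have hone : ∀ i : Fin n,
      law ρ {x | R < |x i|} ≤ ENNReal.ofReal (2 * Real.exp (-(R ^ 2 / a ^ 2))) := by
    intro i
    have h := hs (Pi.single i 1) (by simp [Pi.single_apply])
    have h' : ∫⁻ x, ENNReal.ofReal (Real.exp (x i ^ 2 / a ^ 2)) ∂law ρ ≤ 2 := by
      simpa [Pi.single_apply] using h
    set E := ENNReal.ofReal (Real.exp (R ^ 2 / a ^ 2)) with hE
    have hsub : {x : Fin n → ℝ | R < |x i|}
        ⊆ {x | E ≤ ENNReal.ofReal (Real.exp (x i ^ 2 / a ^ 2))} := by
      intro x hx
      refine ENNReal.ofReal_le_ofReal (Real.exp_le_exp.2 ?_)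
      have : R ^ 2 ≤ x i ^ 2 := by
        rw [← sq_abs (x i)]
        exact pow_le_pow_left₀ hR.le (le_of_lt hx) 2
      gcongr
    have hmk : E * law ρ {x | R < |x i|} ≤ 2 :=
      ((mul_le_mul' le_rfl (measure_mono hsub)).trans
        (mul_meas_ge_le_lintegral₀ (Measurable.aemeasurable (by fun_prop)) E)).trans h'
    have hE0 : E ≠ 0 := by simp [hE, Real.exp_pos]
    rw [mul_comm, ← ENNReal.le_div_iff_mul_le (Or.inl hE0) (Or.inl ENNReal.ofReal_ne_top)] at hmk
    refine hmk.trans (le_of_eq ?_)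
    rw [hE, Real.exp_neg, ← div_eq_mul_inv, ENNReal.ofReal_div_of_pos (Real.exp_pos _)]
    simp
  calc law ρ {x | ∃ i, R < |x i|} = law ρ (⋃ i, {x | R < |x i|}) := by
        congr 1; ext x; simp
    _ ≤ ∑ i, law ρ {x | R < |x i|} := measure_iUnion_fintype_le _ _
    _ ≤ ∑ _i : Fin n, ENNReal.ofReal (2 * Real.exp (-(R ^ 2 / a ^ 2))) :=
        Finset.sum_le_sum fun i _ => hone i
    _ = _ := by
        rw [Finset.sum_const, Finset.card_univ, Fintype.card_fin, nsmul_eq_mul,
          ← ENNReal.ofReal_natCast, ← ENNReal.ofReal_mul (Nat.cast_nonneg n)]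
        congr 1
        ring

end

end Vale.Agent.P245
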