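import Vale.Agent.P245.Tighten
import Vale.Agent.P245.Tail

/-!
# The logarithmic Sobolev inequality for unconditional subgaussian log-concave measures
-/

open MeasureTheory Filter Topology
open scoped ENNReal

namespace Vale.Agent.P245

noncomputable section

theorem nat_mul_exp_le (n : ℕ) {K : ℝ} (hK : 1 ≤ K) :
    (n : ℝ) * Real.exp (-(K * (1 + Real.log n))) ≤ Real.exp (-K) := by
  rcases Nat.eq_zero_or_pos n with rfl | hn
  · simp [(Real.exp_pos _).le]
  · have hn' : (0 : ℝ) < n := by exact_mod_cast hn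
    have hl : 0 ≤ Real.log n := Real.log_nonneg (by exact_mod_cast hn)
    rw [← Real.exp_log hn', ← Real.exp_add, Real.exp_log hn']
    refine Real.exp_le_exp.2 ?_
    have := mul_le_mul_of_nonneg_right hK hl
    linarith

/-- The main theorem of this folder. -/
theorem lsi_unconditional : ∃ C : ℝ, 0 < C ∧ ∀ (n : ℕ) (ρ : (Fin n → ℝ) → ℝ), GoodDensity ρ →
    ∀ a : ℝ, 0 < a → Subgauss (law ρ) a → ∀ f, Tame f →
      ent (law ρ) (fun x => f x ^ 2) ≤ C * a ^ 2 * (1 + Real.log n) * energy (law ρ) f := by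
  obtain ⟨M, hM1, hM⟩ := smoothTransition_deriv_bound
  set K : ℝ := 1152 * M ^ 2 + 6 with hK
  have hM2 : 0 ≤ 1152 * M ^ 2 := by positivity
  have hK1 : 1 ≤ K := by linarith
  set C₀ : ℝ := 16 * K + 160 with hC₀
  have hC0 : 0 < C₀ := by linarith
  refine ⟨10 ^ 6 * C₀, by positivity, fun n ρ hρ a ha hs f hf => ?_⟩
  have hl : 0 ≤ Real.log n := Real.log_natCast_nonneg n
  set R : ℝ := a * Real.sqrt (C₀ * (1 + Real.log n)) with hRdef
  have hR : 0 < R := mul_pos ha (Real.sqrt_pos.2 (by positivity))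
  have hR2 : R ^ 2 = C₀ * a ^ 2 * (1 + Real.log n) := by
    rw [hRdef, mul_pow, Real.sq_sqrt (by positivity)]
    ring
  have hRa : 160 * a ^ 2 ≤ R ^ 2 := by
    rw [hR2]
    have h1 : 160 * a ^ 2 ≤ C₀ * a ^ 2 := mul_le_mul_of_nonneg_right (by linarith) (sq_nonneg a)
    exact h1.trans (le_mul_of_one_le_right (by positivity) (by linarith))
  have hKR : K * (1 + Real.log n) ≤ R ^ 2 / (16 * a ^ 2) := by
    rw [le_div_iff₀ (by positivity), hR2]
    have : 16 * K * (a ^ 2 * (1 + Real.log n)) ≤ C₀ * (a ^ 2 * (1 + Real.log n)) :=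
      mul_le_mul_of_nonneg_right (by linarith) (by positivity)
    linarith
  set L : ℝ := 2 * n * Real.exp (-(R ^ 2 / (16 * a ^ 2))) with hLdef
  have hdecay : (n : ℝ) * Real.exp (-(R ^ 2 / (16 * a ^ 2))) ≤ Real.exp (-K) :=
    le_trans (mul_le_mul_of_nonneg_left (Real.exp_le_exp.2 (neg_le_neg hKR)) (Nat.cast_nonneg n))
      (nat_mul_exp_le n hK1)
  have h2e : (2 : ℝ) ≤ Real.exp 1 := by linarith [Real.add_one_le_exp 1]
  have hhalf : Real.exp (1 - K) ≤ 1 / 2 := by
    have h1 : Real.exp (1 - K) ≤ Real.exp (-1) := Real.exp_le_exp.2 (by linarith)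
    rw [Real.exp_neg] at h1
    have h2 : (Real.exp 1)⁻¹ ≤ (2 : ℝ)⁻¹ := inv_anti₀ two_pos h2e
    linarith
  have h2K : 2 * Real.exp (-K) ≤ Real.exp (1 - K) := by
    rw [sub_eq_add_neg, Real.exp_add]
    exact mul_le_mul_of_nonneg_right h2e (Real.exp_pos _).le
  have hL1 : L ≤ 1 := by
    rw [hLdef, mul_assoc]
    linarith
  have hexc : law ρ {x | ∃ i, R < |x i|} ≤ ENNReal.ofReal (Real.exp (1 - K)) := by
    refine (measure_exceed_le hρ ha hs hR).trans (ENNReal.ofReal_le_ofReal ?_)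
    have h1 : Real.exp (-(R ^ 2 / a ^ 2)) ≤ Real.exp (-(R ^ 2 / (16 * a ^ 2))) := by
      refine Real.exp_le_exp.2 (neg_le_neg ?_)
      exact div_le_div_of_nonneg_left (sq_nonneg R) (by positivity) (by linarith [sq_nonneg a])
    have h2 := mul_le_mul_of_nonneg_left h1 (Nat.cast_nonneg (α := ℝ) n)
    rw [mul_assoc]
    linarith
  have h := lsi_of_tail hρ hR hL1 (excess_exp_moment hρ ha hs hR hRa) hM1 hM
    (hexc.trans (ENNReal.ofReal_le_ofReal (Real.exp_le_exp.2 (by linarith))))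
    (hexc.trans (ENNReal.ofReal_le_ofReal hhalf)) hf
  refine h.trans (le_of_eq ?_)
  rw [hR2]
  ring

end

end Vale.Agent.P245
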