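import Vale.Agent.P245.Defs

/-!
# Prekopa-Leindler on the orthant in square-root coordinates, general weights
-/

open MeasureTheory Set
open Vale.Agent.P254.Sym (orth)
open scoped ENNReal

namespace Vale.Agent.P245

noncomputable section

/-- The weighted mean of the square roots, squared. -/
def qmean (θ s x y : ℝ) : ℝ := (θ * Real.sqrt x + s * Real.sqrt y) ^ 2

/-- The gain of one coordinate. -/
def gain (θ s x y : ℝ) : ℝ :=
  (θ * Real.sqrt x + s * Real.sqrt y) / (Real.sqrt x ^ θ * Real.sqrt y ^ s)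

theorem gain_pos {θ s x y : ℝ} (hθ : 0 < θ) (hs : 0 < s) (hx : 0 < x) (hy : 0 < y) :
    0 < gain θ s x y := by
  have := Real.sqrt_pos.2 hx
  have := Real.sqrt_pos.2 hy
  rw [gain]
  positivity

/-- Integration over the orthant in square-root coordinates. -/
theorem lintegral_orth_sq : ∀ (n : ℕ) {u : (Fin n → ℝ) → ℝ≥0∞}, Measurable u →
    ∫⁻ x, u x ∂orth n
      = ∫⁻ t, (∏ i, ENNReal.ofReal (2 * t i)) * u (fun i => t i ^ 2) ∂orth n := by
  intro n
  induction n with
  | zero =>
    intro u _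
    simp only [orth, P254.Sym.lintegral_pi_zero, Finset.univ_eq_empty, Finset.prod_empty, one_mul]
    exact congrArg u (Subsingleton.elim _ _)
  | succ n ih =>
    intro u hu
    have hsq : Measurable fun t : Fin (n + 1) → ℝ => fun i => t i ^ 2 :=
      measurable_pi_iff.2 fun i => (measurable_pi_apply i).pow_const 2
    have hprod : Measurable fun t : Fin (n + 1) → ℝ => ∏ i, ENNReal.ofReal (2 * t i) :=
      Finset.measurable_prod _ fun i _ => ((measurable_pi_apply i).const_mul 2).ennreal_ofReal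
    have hm : Measurable fun t : Fin (n + 1) → ℝ =>
        (∏ i, ENNReal.ofReal (2 * t i)) * u (fun i => t i ^ 2) := hprod.mul (hu.comp hsq)
    simp only [orth, P254.Sym.lintegral_pi_cons _ hu, P254.Sym.lintegral_pi_cons _ hm]
    rw [P254.Sym.lintegral_sq_subst]
    refine lintegral_congr fun t => ?_
    have hz : Measurable fun z : Fin n → ℝ => u (Fin.cons (t ^ 2) z) :=
      hu.comp ((P254.Sym.measurable_cons n).comp (measurable_const.prodMk measurable_id))
    have := ih hz
    simp only [orth] at this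
    rw [this, ← lintegral_const_mul']
    · refine lintegral_congr fun z => ?_
      rw [Fin.prod_univ_succ]
      simp only [Fin.cons_zero, Fin.cons_succ, mul_assoc]
      congr 3
      funext i
      refine Fin.cases ?_ (fun j => ?_) i <;> simp
    · exact ENNReal.ofReal_ne_top

/-- Prekopa-Leindler on the orthant for weighted means of square roots. -/
theorem pl_sqrt {θ s : ℝ} (hθ : 0 < θ) (hs : 0 < s) (hθs : θ + s = 1) {n : ℕ}
    {f g h : (Fin n → ℝ) → ℝ≥0∞} (hf : Measurable f) (hg : Measurable g) (hh : Measurable h)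
    (hle : ∀ x y : Fin n → ℝ, (∀ i, 0 < x i) → (∀ i, 0 < y i) →
      f x ^ θ * g y ^ s ≤ ENNReal.ofReal (∏ i, gain θ s (x i) (y i))
        * h (fun i => qmean θ s (x i) (y i))) :
    (∫⁻ x, f x ∂orth n) ^ θ * (∫⁻ x, g x ∂orth n) ^ s ≤ ∫⁻ x, h x ∂orth n := by
  have hsq : Measurable fun t : Fin n → ℝ => fun i => t i ^ 2 :=
    measurable_pi_iff.2 fun i => (measurable_pi_apply i).pow_const 2
  have hprod : Measurable fun t : Fin n → ℝ => ∏ i, ENNReal.ofReal (2 * t i) :=
    Finset.measurable_prod _ fun i _ => ((measurable_pi_apply i).const_mul 2).ennreal_ofReal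
  have hO : MeasurableSet (univ.pi fun _ : Fin n => Ioi (0 : ℝ)) :=
    MeasurableSet.univ_pi fun _ => measurableSet_Ioi
  set T : ((Fin n → ℝ) → ℝ≥0∞) → (Fin n → ℝ) → ℝ≥0∞ := fun u =>
    (univ.pi fun _ : Fin n => Ioi (0 : ℝ)).indicator
      fun t => (∏ i, ENNReal.ofReal (2 * t i)) * u (fun i => t i ^ 2) with hT
  have hTm : ∀ u, Measurable u → Measurable (T u) := fun u hu =>
    (hprod.mul (hu.comp hsq)).indicator hO
  have hTi : ∀ u, Measurable u → ∫⁻ x, T u x = ∫⁻ x, u x ∂orth n := fun u hu => by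
    simp only [hT]
    rw [lintegral_indicator hO, ← P254.Sym.orth_eq, ← lintegral_orth_sq n hu]
  have key := P254.Sym.pl_vol hθ hs hθs n (hTm f hf) (hTm g hg) (hTm h hh) ?_
  · rwa [hTi f hf, hTi g hg, hTi h hh] at key
  intro x y
  by_cases hx : x ∈ univ.pi fun _ : Fin n => Ioi (0 : ℝ)
  swap
  · simp [hT, indicator_of_notMem hx, ENNReal.zero_rpow_of_pos hθ]
  by_cases hy : y ∈ univ.pi fun _ : Fin n => Ioi (0 : ℝ)
  swap
  · simp [hT, indicator_of_notMem hy, ENNReal.zero_rpow_of_pos hs]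
  have hx' : ∀ i, 0 < x i := fun i => hx i (mem_univ i)
  have hy' : ∀ i, 0 < y i := fun i => hy i (mem_univ i)
  have hu' : ∀ i, 0 < (θ • x + s • y) i := fun i => by
    have := hx' i
    have := hy' i
    simp only [Pi.add_apply, Pi.smul_apply, smul_eq_mul]
    positivity
  have hu : θ • x + s • y ∈ univ.pi fun _ : Fin n => Ioi (0 : ℝ) := fun i _ => hu' i
  simp only [hT, indicator_of_mem hx, indicator_of_mem hy, indicator_of_mem hu]
  have hc := hle (fun i => x i ^ 2) (fun i => y i ^ 2) (fun i => pow_pos (hx' i) 2)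
    (fun i => pow_pos (hy' i) 2)
  have hq : ∀ i, qmean θ s (x i ^ 2) (y i ^ 2) = (θ • x + s • y) i ^ 2 := fun i => by
    simp only [qmean, Real.sqrt_sq (hx' i).le, Real.sqrt_sq (hy' i).le, Pi.add_apply,
      Pi.smul_apply, smul_eq_mul]
  simp only [hq] at hc
  rw [ENNReal.mul_rpow_of_nonneg _ _ hθ.le, ENNReal.mul_rpow_of_nonneg _ _ hs.le,
    ← ENNReal.prod_rpow_of_nonneg hθ.le, ← ENNReal.prod_rpow_of_nonneg hs.le]
  have he : (∏ i, ENNReal.ofReal (2 * x i) ^ θ) * (∏ i, ENNReal.ofReal (2 * y i) ^ s)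
      * ENNReal.ofReal (∏ i, gain θ s (x i ^ 2) (y i ^ 2))
      = ∏ i, ENNReal.ofReal (2 * (θ • x + s • y) i) := by
    rw [ENNReal.ofReal_prod_of_nonneg fun i _ =>
        (gain_pos hθ hs (pow_pos (hx' i) 2) (pow_pos (hy' i) 2)).le,
      ← Finset.prod_mul_distrib, ← Finset.prod_mul_distrib]
    refine Finset.prod_congr rfl fun i _ => ?_
    have := hx' i
    have := hy' i
    rw [ENNReal.ofReal_rpow_of_pos (by positivity), ENNReal.ofReal_rpow_of_pos (by positivity),
      ← ENNReal.ofReal_mul (by positivity), ← ENNReal.ofReal_mul (by positivity)]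
    congr 1
    rw [gain, Real.sqrt_sq (hx' i).le, Real.sqrt_sq (hy' i).le,
      Real.mul_rpow two_pos.le (hx' i).le, Real.mul_rpow two_pos.le (hy' i).le]
    simp only [Pi.add_apply, Pi.smul_apply, smul_eq_mul]
    have h2 : (2 : ℝ) ^ θ * 2 ^ s = 2 := by
      rw [← Real.rpow_add two_pos, hθs, Real.rpow_one]
    field_simp
    exact h2
  calc (∏ i, ENNReal.ofReal (2 * x i) ^ θ) * f (fun i => x i ^ 2) ^ θ
        * ((∏ i, ENNReal.ofReal (2 * y i) ^ s) * g (fun i => y i ^ 2) ^ s)
      = (∏ i, ENNReal.ofReal (2 * x i) ^ θ) * (∏ i, ENNReal.ofReal (2 * y i) ^ s)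
        * (f (fun i => x i ^ 2) ^ θ * g (fun i => y i ^ 2) ^ s) := by ring
    _ ≤ (∏ i, ENNReal.ofReal (2 * x i) ^ θ) * (∏ i, ENNReal.ofReal (2 * y i) ^ s)
        * (ENNReal.ofReal (∏ i, gain θ s (x i ^ 2) (y i ^ 2))
          * h (fun i => (θ • x + s • y) i ^ 2)) := by gcongr
    _ = _ := by rw [← mul_assoc, he]

end

end Vale.Agent.P245
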