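import Vale.Agent.P245.PLSqrt

/-!
# The gain of the square-root mean pays for the quadratic term
-/

open Set

namespace Vale.Agent.P245

noncomputable section

/-- Strong convexity of `-log` on `(0, M]`, between two points. -/
theorem log_gap {θ s A B M : ℝ} (hθ : 0 < θ) (hs : 0 < s) (hθs : θ + s = 1) (hA : 0 < A)
    (hB : 0 < B) (hAM : A ≤ M) (hBM : B ≤ M) :
    θ * s * (A - B) ^ 2 / (2 * M ^ 2)
      ≤ Real.log (θ * A + s * B) - θ * Real.log A - s * Real.log B := by
  have hM : 0 < M := lt_of_lt_of_le hA hAM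
  set ψ : ℝ → ℝ := fun t => Real.log t + t ^ 2 / (2 * M ^ 2) with hψ
  have hd : ∀ t, 0 < t → HasDerivAt ψ (t⁻¹ + t / M ^ 2) t := fun t ht => by
    have h := (Real.hasDerivAt_log ht.ne').add (((hasDerivAt_id t).pow 2).div_const (2 * M ^ 2))
    refine h.congr_deriv ?_
    simp
    field_simp
  have hc : ConcaveOn ℝ (Ioc 0 M) ψ := by
    refine AntitoneOn.concaveOn_of_deriv (convex_Ioc 0 M)
      (fun t ht => (hd t ht.1).continuousAt.continuousWithinAt)
      (fun t ht => (hd t (interior_subset ht).1).differentiableAt.differentiableWithinAt) ?_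
    intro t ht r hr htr
    rw [(hd t (interior_subset ht).1).deriv, (hd r (interior_subset hr).1).deriv]
    have ht' := interior_subset ht
    have hr' := interior_subset hr
    have h0 : 0 < t := ht'.1
    have h1 : 0 < r := hr'.1
    have key : r⁻¹ + r / M ^ 2 - (t⁻¹ + t / M ^ 2) = (r - t) * (r * t - M ^ 2) / (r * t * M ^ 2) := by
      field_simp
      ring
    have h2 : (r - t) * (r * t - M ^ 2) / (r * t * M ^ 2) ≤ 0 := by
      refine div_nonpos_of_nonpos_of_nonneg
        (mul_nonpos_of_nonneg_of_nonpos (by linarith) ?_) (by positivity)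
      have := mul_le_mul hr'.2 ht'.2 h0.le hM.le
      nlinarith
    linarith
  have h := hc.2 (mem_Ioc.2 ⟨hA, hAM⟩) (mem_Ioc.2 ⟨hB, hBM⟩) hθ.le hs.le hθs
  simp only [smul_eq_mul, hψ] at h
  have e : θ * (A ^ 2 / (2 * M ^ 2)) + s * (B ^ 2 / (2 * M ^ 2))
      - (θ * A + s * B) ^ 2 / (2 * M ^ 2) = θ * s * (A - B) ^ 2 / (2 * M ^ 2) := by
    have hs' : s = 1 - θ := by linarith
    subst hs'
    field_simp
    ring
  linarith

variable {θ s x y : ℝ}

theorem log_gain_eq (hθ : 0 < θ) (hs : 0 < s) (hx : 0 < x) (hy : 0 < y) :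
    Real.log (gain θ s x y)
      = Real.log (θ * Real.sqrt x + s * Real.sqrt y)
        - θ * Real.log (Real.sqrt x) - s * Real.log (Real.sqrt y) := by
  have := Real.sqrt_pos.2 hx
  have := Real.sqrt_pos.2 hy
  rw [gain, Real.log_div (by positivity) (by positivity),
    Real.log_mul (by positivity) (by positivity), Real.log_rpow (by positivity),
    Real.log_rpow (by positivity)]
  ring

theorem log_gain_nonneg (hθ : 0 < θ) (hs : 0 < s) (hθs : θ + s = 1) (hx : 0 < x) (hy : 0 < y) :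
    0 ≤ Real.log (gain θ s x y) := by
  rw [log_gain_eq hθ hs hx hy]
  exact le_trans (by positivity) (log_gap hθ hs hθs (Real.sqrt_pos.2 hx) (Real.sqrt_pos.2 hy)
    (le_max_left _ _) (le_max_right _ _))

theorem qmean_le (hθ : 0 < θ) (hs : 0 < s) (hθs : θ + s = 1) (hx : 0 ≤ x) (hy : 0 ≤ y) :
    qmean θ s x y ≤ θ * x + s * y := by
  have hx' := Real.mul_self_sqrt hx
  have hy' := Real.mul_self_sqrt hy
  have hs' : s = 1 - θ := by linarith
  rw [qmean]
  have e : θ * x + s * y - (θ * Real.sqrt x + s * Real.sqrt y) ^ 2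
      = θ * s * (Real.sqrt x - Real.sqrt y) ^ 2 := by
    rw [hs']
    linear_combination (-θ) * hx' - (1 - θ) * hy'
  have : 0 ≤ θ * s * (Real.sqrt x - Real.sqrt y) ^ 2 := by positivity
  linarith

theorem abs_sub_qmean_le (hθ : 0 < θ) (hs : 0 < s) (hθs : θ + s = 1) (hx : 0 < x) (hy : 0 < y) :
    |x - qmean θ s x y| ≤ 2 * s * |x - y| := by
  have hx' := Real.mul_self_sqrt hx.le
  have hy' := Real.mul_self_sqrt hy.le
  have hA := Real.sqrt_pos.2 hx
  have hB := Real.sqrt_pos.2 hy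
  have hθ' : θ = 1 - s := by linarith
  have e1 : x - qmean θ s x y = s * (Real.sqrt x - Real.sqrt y)
      * ((2 - s) * Real.sqrt x + s * Real.sqrt y) := by
    rw [qmean, hθ']
    linear_combination -hx'
  have e2 : x - y = (Real.sqrt x - Real.sqrt y) * (Real.sqrt x + Real.sqrt y) := by
    linear_combination hy' - hx'
  have hs1 : s ≤ 1 := by linarith
  have hpos : 0 ≤ (2 - s) * Real.sqrt x + s * Real.sqrt y := by
    have : 0 ≤ 2 - s := by linarith
    positivity
  rw [e1, e2, abs_mul, abs_mul, abs_of_pos hs, abs_of_nonneg hpos, abs_mul,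
    abs_of_pos (add_pos hA hB)]
  have h1 : (2 - s) * Real.sqrt x + s * Real.sqrt y ≤ 2 * (Real.sqrt x + Real.sqrt y) := by
    nlinarith
  calc s * |Real.sqrt x - Real.sqrt y| * ((2 - s) * Real.sqrt x + s * Real.sqrt y)
      ≤ s * |Real.sqrt x - Real.sqrt y| * (2 * (Real.sqrt x + Real.sqrt y)) := by gcongr
    _ = _ := by ring

/-- The part of `x ^ 2` above `R`. -/
def exc (R x : ℝ) : ℝ := if R < x then x ^ 2 else 0

theorem exc_nonneg (R x : ℝ) : 0 ≤ exc R x := by
  rw [exc]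
  split_ifs <;> positivity

theorem sq_sub_le (hθ : 0 < θ) (hs : 0 < s) (hθs : θ + s = 1) (hx : 0 < x) (hy : 0 < y) {R : ℝ}
    (hR : 0 < R) :
    (x - y) ^ 2 * (θ * s / (8 * R ^ 2))
      ≤ Real.log (gain θ s x y) + s / (8 * R ^ 2) * (exc R x + exc R y) := by
  have hθ1 : θ ≤ 1 := by linarith
  by_cases hbig : max x y ≤ R
  · have hA := Real.sqrt_pos.2 hx
    have hB := Real.sqrt_pos.2 hy
    have hAM : Real.sqrt x ≤ Real.sqrt R := Real.sqrt_le_sqrt ((le_max_left _ _).trans hbig)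
    have hBM : Real.sqrt y ≤ Real.sqrt R := Real.sqrt_le_sqrt ((le_max_right _ _).trans hbig)
    have h := log_gap hθ hs hθs hA hB hAM hBM
    rw [← log_gain_eq hθ hs hx hy] at h
    have hR' := Real.sq_sqrt hR.le
    have key : (x - y) ^ 2 ≤ 4 * R * (Real.sqrt x - Real.sqrt y) ^ 2 := by
      have hx' := Real.mul_self_sqrt hx.le
      have hy' := Real.mul_self_sqrt hy.le
      have e : x - y = (Real.sqrt x - Real.sqrt y) * (Real.sqrt x + Real.sqrt y) := by
        linear_combination hy' - hx'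
      rw [e, mul_pow, mul_comm]
      refine mul_le_mul_of_nonneg_right ?_ (sq_nonneg _)
      nlinarith
    calc (x - y) ^ 2 * (θ * s / (8 * R ^ 2))
        ≤ 4 * R * (Real.sqrt x - Real.sqrt y) ^ 2 * (θ * s / (8 * R ^ 2)) := by gcongr
      _ = θ * s * (Real.sqrt x - Real.sqrt y) ^ 2 / (2 * Real.sqrt R ^ 2) := by
          rw [hR']; field_simp; ring
      _ ≤ Real.log (gain θ s x y) := h
      _ ≤ _ := le_add_of_nonneg_right
          (mul_nonneg (by positivity) (add_nonneg (exc_nonneg _ _) (exc_nonneg _ _)))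
  · rw [not_le] at hbig
    have h : (x - y) ^ 2 ≤ exc R x + exc R y := by
      rcases le_total x y with hxy | hxy
      · rw [max_eq_right hxy] at hbig
        have e : exc R y = y ^ 2 := by rw [exc, if_pos hbig]
        have := exc_nonneg R x
        nlinarith
      · rw [max_eq_left hxy] at hbig
        have e : exc R x = x ^ 2 := by rw [exc, if_pos hbig]
        have := exc_nonneg R y
        nlinarith
    have hθs' : θ * s / (8 * R ^ 2) ≤ s / (8 * R ^ 2) := by
      gcongr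
      exact mul_le_of_le_one_left hs.le hθ1
    calc (x - y) ^ 2 * (θ * s / (8 * R ^ 2)) ≤ (exc R x + exc R y) * (s / (8 * R ^ 2)) :=
          mul_le_mul h hθs' (by positivity) (add_nonneg (exc_nonneg _ _) (exc_nonneg _ _))
      _ ≤ _ := by
          rw [mul_comm]
          exact le_add_of_nonneg_left (log_gain_nonneg hθ hs hθs hx hy)

/-- One coordinate of the fundamental pointwise inequality. -/
theorem coord_bound (hθ : 0 < θ) (hs : 0 < s) (hθs : θ + s = 1) (hx : 0 < x) (hy : 0 < y) {R K : ℝ}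
    (hR : 0 < R) (hK : 0 ≤ K) (hs4 : s ≤ 1 / 4) (hsK : 256 * R ^ 2 * K * s ≤ 1) (d : ℝ) :
    d * (x - qmean θ s x y) + K * (x - qmean θ s x y) ^ 2
      ≤ s * (16 * R ^ 2) * d ^ 2 + Real.log (gain θ s x y)
        + s / (8 * R ^ 2) * (exc R x + exc R y) := by
  have h1 := abs_sub_qmean_le hθ hs hθs hx hy
  have h2 := sq_sub_le hθ hs hθs hx hy hR
  set u := |x - y| with hu
  have hu2 : (x - y) ^ 2 = u ^ 2 := (sq_abs _).symm
  rw [hu2] at h2
  have h3 : d * (x - qmean θ s x y) ≤ 2 * s * (|d| * u) := by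
    calc d * (x - qmean θ s x y) ≤ |d| * |x - qmean θ s x y| := by
          rw [← abs_mul]; exact le_abs_self _
      _ ≤ |d| * (2 * s * u) := by gcongr
      _ = _ := by ring
  have h4 : (x - qmean θ s x y) ^ 2 ≤ 4 * s ^ 2 * u ^ 2 := by
    rw [← sq_abs]
    calc |x - qmean θ s x y| ^ 2 ≤ (2 * s * u) ^ 2 := by gcongr
      _ = _ := by ring
  have h5 : 2 * (|d| * u) ≤ 16 * R ^ 2 * d ^ 2 + u ^ 2 / (16 * R ^ 2) := by
    have := two_mul_le_add_sq (4 * R * |d|) (u / (4 * R))
    calc 2 * (|d| * u) = 2 * (4 * R * |d|) * (u / (4 * R)) := by field_simp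
      _ ≤ (4 * R * |d|) ^ 2 + (u / (4 * R)) ^ 2 := this
      _ = _ := by rw [mul_pow, div_pow, sq_abs]; ring
  have h6 : K * (x - qmean θ s x y) ^ 2 ≤ s * (u ^ 2 / (64 * R ^ 2)) := by
    calc K * (x - qmean θ s x y) ^ 2 ≤ K * (4 * s ^ 2 * u ^ 2) := by gcongr
      _ = (256 * R ^ 2 * K * s) * (s * (u ^ 2 / (64 * R ^ 2))) := by field_simp; ring
      _ ≤ 1 * (s * (u ^ 2 / (64 * R ^ 2))) := by gcongr
      _ = _ := one_mul _
  have h7 : s * (u ^ 2 / (16 * R ^ 2)) + s * (u ^ 2 / (64 * R ^ 2))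
      ≤ u ^ 2 * (θ * s / (8 * R ^ 2)) := by
    have e : u ^ 2 * (θ * s / (8 * R ^ 2))
        - (s * (u ^ 2 / (16 * R ^ 2)) + s * (u ^ 2 / (64 * R ^ 2)))
        = s * u ^ 2 * (8 * θ - 5) / (64 * R ^ 2) := by
      field_simp
      ring
    have h8 : 0 ≤ 8 * θ - 5 := by linarith
    have : 0 ≤ s * u ^ 2 * (8 * θ - 5) / (64 * R ^ 2) := by positivity
    linarith
  have h9 := mul_le_mul_of_nonneg_left h5 hs.le
  linarith

end

end Vale.Agent.P245
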