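import Vale.Agent.P245.Defs

/-!
# Functions constant outside a compact set
-/

open MeasureTheory Filter Topology

namespace Vale.Agent.P245

noncomputable section

variable {n : ℕ}

theorem natCast_ne_zero_top : ((⊤ : ℕ∞) : WithTop ℕ∞) ≠ 0 := by simp

theorem one_le_smooth : (1 : WithTop ℕ∞) ≤ ((⊤ : ℕ∞) : WithTop ℕ∞) := by exact_mod_cast le_top

theorem two_le_smooth : (1 : WithTop ℕ∞) + 1 ≤ ((⊤ : ℕ∞) : WithTop ℕ∞) :=
  WithTop.coe_le_coe.2 (le_top : (1 : ℕ∞) + 1 ≤ ⊤)

namespace Tame

variable {f : (Fin n → ℝ) → ℝ}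

theorem differentiable (hf : Tame f) : Differentiable ℝ f :=
  hf.smooth.differentiable natCast_ne_zero_top

theorem continuous (hf : Tame f) : Continuous f := hf.smooth.continuous

theorem compact_fderiv (hf : Tame f) : HasCompactSupport (fderiv ℝ f) := by
  obtain ⟨c, hc⟩ := hf.const_outside
  have h : fderiv ℝ f = fderiv ℝ fun x => f x - c := by
    funext x
    rw [fderiv_sub_const]
  rw [h]
  exact hc.fderiv ℝ

theorem continuous_fderiv (hf : Tame f) : Continuous (fderiv ℝ f) :=
  hf.smooth.continuous_fderiv natCast_ne_zero_top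

theorem continuous_pd (hf : Tame f) (i : Fin n) : Continuous (pd i f) :=
  hf.continuous_fderiv.clm_apply continuous_const

theorem compact_pd (hf : Tame f) (i : Fin n) : HasCompactSupport (pd i f) :=
  hf.compact_fderiv.mono' fun x hx => subset_closure fun h => hx (by simp [pd, h])

theorem bounded (hf : Tame f) : ∃ C, ∀ x, |f x| ≤ C := by
  obtain ⟨c, hc⟩ := hf.const_outside
  obtain ⟨C, hC⟩ := hc.exists_bound_of_continuous (hf.continuous.sub continuous_const)
  refine ⟨C + |c|, fun x => ?_⟩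
  have h := hC x
  rw [Real.norm_eq_abs] at h
  linarith [abs_add_le (f x - c) c, (congrArg abs (sub_add_cancel (f x) c)).le,
    (congrArg abs (sub_add_cancel (f x) c)).ge]

theorem continuous_gradSq (hf : Tame f) : Continuous (gradSq f) :=
  continuous_finsetSum _ fun i _ => (hf.continuous_pd i).pow 2

theorem bounded_gradSq (hf : Tame f) : ∃ C, ∀ x, gradSq f x ≤ C := by
  have hc : HasCompactSupport (gradSq f) :=
    hf.compact_fderiv.mono' fun x hx => subset_closure fun h => hx (by simp [gradSq, pd, h])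
  obtain ⟨C, hC⟩ := hc.exists_bound_of_continuous hf.continuous_gradSq
  exact ⟨C, fun x => (Real.le_norm_self _).trans (hC x)⟩

/-- Taylor's bound with a uniform constant. -/
theorem taylor (hf : Tame f) : ∃ K : ℝ, 0 ≤ K ∧ ∀ x z,
    f x ≤ f z + ∑ i, pd i f z * (x i - z i) + K * ∑ i, (x i - z i) ^ 2 := by
  obtain ⟨K, hK⟩ := ContDiff.lipschitzWith_of_hasCompactSupport (𝕂 := ℝ) hf.compact_fderiv
    (hf.smooth.fderiv_right (m := 1) two_le_smooth) one_ne_zero
  refine ⟨K, K.coe_nonneg, fun x z => ?_⟩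
  set D := fderiv ℝ f z with hD
  have hb : ∀ w ∈ segment ℝ z x, ‖fderiv ℝ f w - D‖ ≤ K * ‖x - z‖ := fun w hw => by
    have h1 := hK.norm_sub_le w z
    refine h1.trans (mul_le_mul_of_nonneg_left ?_ K.coe_nonneg)
    exact norm_sub_le_of_mem_segment hw
  have h := (convex_segment z x).norm_image_sub_le_of_norm_fderiv_le'
    (fun w _ => hf.differentiable w) hb (left_mem_segment ℝ z x) (right_mem_segment ℝ z x)
  have hlin : D (x - z) = ∑ i, pd i f z * (x i - z i) := by
    rw [show x - z = ∑ i, (x i - z i) • (Pi.single i 1 : Fin n → ℝ) from funext fun j => by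
      simp [Finset.sum_apply, Pi.single_apply], map_sum]
    simp [pd, hD, mul_comm]
  have hnorm : ‖x - z‖ * ‖x - z‖ ≤ ∑ i, (x i - z i) ^ 2 := by
    rcases isEmpty_or_nonempty (Fin n) with hn | hn
    · have : x - z = 0 := Subsingleton.elim _ _
      simp [this]
    · obtain ⟨i, hi⟩ : ∃ i, ‖x - z‖ = ‖(x - z) i‖ := by
        obtain ⟨i, -, hi⟩ := Finset.exists_max_image Finset.univ (fun i => ‖(x - z) i‖)
          Finset.univ_nonempty
        exact ⟨i, le_antisymm
          ((pi_norm_le_iff_of_nonneg (norm_nonneg _)).2 fun j => hi j (Finset.mem_univ j))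
          (norm_le_pi_norm _ i)⟩
      rw [hi, Real.norm_eq_abs, ← sq, sq_abs, Pi.sub_apply]
      exact Finset.single_le_sum (f := fun j => (x j - z j) ^ 2) (fun j _ => sq_nonneg _)
        (Finset.mem_univ i)
  rw [hlin] at h
  have h' := (Real.le_norm_self _).trans h
  have h2 := mul_le_mul_of_nonneg_left hnorm K.coe_nonneg
  linarith

theorem comp_smooth (hf : Tame f) {φ : ℝ → ℝ} {s : Set ℝ}
    (hφ : ContDiffOn ℝ (⊤ : ℕ∞) φ s) (hfs : ∀ x, f x ∈ s) : Tame fun x => φ (f x) := by
  obtain ⟨c, hc⟩ := hf.const_outside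
  exact ⟨hφ.comp_contDiff hf.smooth hfs, φ c,
    hc.mono' fun x hx => subset_closure fun h => hx (by simp [sub_eq_zero.1 h])⟩

theorem sq (hf : Tame f) : Tame fun x => f x ^ 2 :=
  hf.comp_smooth (φ := fun t => t ^ 2) (s := Set.univ) (contDiff_id.pow 2).contDiffOn
    fun _ => Set.mem_univ _

theorem of_compact (hf : ContDiff ℝ (⊤ : ℕ∞) f) (hc : HasCompactSupport f) : Tame f :=
  ⟨hf, 0, by simpa using hc⟩

theorem sub_const (hf : Tame f) (m : ℝ) : Tame fun x => f x - m := by
  obtain ⟨c, hc⟩ := hf.const_outside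
  refine ⟨hf.smooth.sub contDiff_const, c - m, ?_⟩
  simpa using hc

theorem mul_compact (hf : Tame f) {η : (Fin n → ℝ) → ℝ} (hη : ContDiff ℝ (⊤ : ℕ∞) η)
    (hc : HasCompactSupport η) : Tame fun x => f x * η x :=
  of_compact (hf.smooth.mul hη) hc.mul_left

theorem sub {g : (Fin n → ℝ) → ℝ} (hf : Tame f) (hg : Tame g) : Tame fun x => f x - g x := by
  obtain ⟨c, hc⟩ := hf.const_outside
  obtain ⟨d, hd⟩ := hg.const_outside
  refine ⟨hf.smooth.sub hg.smooth, c - d, ?_⟩
  have h := hc.add hd.neg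
  refine h.mono' fun x hx => subset_closure ?_
  simp only [Function.mem_support, Pi.add_apply, Pi.neg_apply] at hx ⊢
  intro h0
  exact hx (by linarith)

variable {μ : Measure (Fin n → ℝ)} [IsFiniteMeasure μ]

theorem integrable (hf : Tame f) : Integrable f μ := by
  obtain ⟨C, hC⟩ := hf.bounded
  exact Integrable.of_bound hf.continuous.aestronglyMeasurable C
    (Eventually.of_forall fun x => by rw [Real.norm_eq_abs]; exact hC x)

theorem integrable_comp (hf : Tame f) {φ : ℝ → ℝ} (hφ : Continuous φ) :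
    Integrable (fun x => φ (f x)) μ := by
  obtain ⟨C, hC⟩ := hf.bounded
  obtain ⟨D, hD⟩ := (isCompact_Icc (a := -C) (b := C)).exists_bound_of_continuousOn hφ.continuousOn
  exact Integrable.of_bound (hφ.comp hf.continuous).aestronglyMeasurable D
    (Eventually.of_forall fun x => hD _ (abs_le.1 (hC x)))

theorem integrable_gradSq (hf : Tame f) : Integrable (gradSq f) μ := by
  obtain ⟨C, hC⟩ := hf.bounded_gradSq
  refine Integrable.of_bound hf.continuous_gradSq.aestronglyMeasurable C
    (Eventually.of_forall fun x => ?_)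
  rw [Real.norm_eq_abs, abs_of_nonneg (Finset.sum_nonneg fun i _ => sq_nonneg _)]
  exact hC x

end Tame

end

end Vale.Agent.P245
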