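import Vale.Agent.P245.Cutoff

/-!
# Tightening the defective inequality
-/

open MeasureTheory Filter Topology
open scoped ENNReal

namespace Vale.Agent.P245

noncomputable section

variable {n : ℕ} {ρ : (Fin n → ℝ) → ℝ}

theorem pd_const_add_mul {u : (Fin n → ℝ) → ℝ} (hu : Differentiable ℝ u) (c e : ℝ) (i : Fin n)
    (x : Fin n → ℝ) : pd i (fun y => c + e * u y) x = e * pd i u x := by
  simp only [pd]
  rw [fderiv_const_add, fderiv_const_mul (hu x)]
  simp

/-- A logarithmic Sobolev inequality gives a spectral gap. -/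
theorem poincare_of_lsi {μ : Measure (Fin n → ℝ)} [IsProbabilityMeasure μ] {C : ℝ}
    (hC : ∀ f, Tame f → ent μ (fun x => f x ^ 2) ≤ C * energy μ f) {u : (Fin n → ℝ) → ℝ}
    (hu : Tame u) (h0 : ∫ x, u x ∂μ = 0) : ∫ x, u x ^ 2 ∂μ ≤ 2 * C * energy μ u := by
  obtain ⟨B, hB⟩ := hu.bounded
  have hB0 : 0 ≤ B := (abs_nonneg _).trans (hB 0)
  obtain ⟨e, he, heB⟩ : ∃ e : ℝ, 0 < e ∧ e * B ≤ 1 / 2 := by
    refine ⟨1 / (2 * (B + 1)), by positivity, ?_⟩
    rw [div_mul_eq_mul_div, one_mul, div_le_div_iff₀ (by positivity) two_pos]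
    linarith
  set f : (Fin n → ℝ) → ℝ := fun x => 1 + e * u x with hf
  have hfT : Tame f := hu.comp_smooth (φ := fun t => 1 + e * t) (s := Set.univ)
    (contDiff_const.add (contDiff_const.mul contDiff_id)).contDiffOn fun _ => Set.mem_univ _
  have hfpos : ∀ x, 0 < f x := fun x => by
    have h1 := (abs_le.1 (hB x)).1
    have h2 := mul_le_mul_of_nonneg_left h1 he.le
    simp only [hf]
    linarith
  set U := ∫ x, u x ^ 2 ∂μ with hU
  have hU0 : 0 ≤ U := integral_nonneg fun x => sq_nonneg _
  have hUB : e ^ 2 * U ≤ 1 / 2 := by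
    rw [hU, ← integral_const_mul]
    calc ∫ x, e ^ 2 * u x ^ 2 ∂μ ≤ ∫ _x, (1 / 2 : ℝ) ∂μ := by
          refine integral_mono (hu.sq.integrable.const_mul _) (integrable_const _) fun x => ?_
          have h1 : e ^ 2 * u x ^ 2 ≤ (e * B) ^ 2 := by
            rw [mul_pow]
            exact mul_le_mul_of_nonneg_left
              (by rw [← sq_abs]; exact pow_le_pow_left₀ (abs_nonneg _) (hB x) 2) (sq_nonneg _)
          have h2 : (e * B) ^ 2 ≤ (1 / 2) ^ 2 := pow_le_pow_left₀ (by positivity) heB 2
          show e ^ 2 * u x ^ 2 ≤ 1 / 2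
          linarith
      _ = 1 / 2 := by simp
  have hP : ∫ x, f x ^ 2 ∂μ = 1 + e ^ 2 * U := by
    have e1 : (fun x => f x ^ 2) = fun x => (1 + 2 * e * u x) + e ^ 2 * u x ^ 2 :=
      funext fun x => by simp only [hf]; ring
    rw [e1, integral_add (by exact (integrable_const 1).add (hu.integrable.const_mul _))
        (hu.sq.integrable.const_mul _), integral_add (integrable_const 1) (hu.integrable.const_mul _),
      integral_const_mul, integral_const_mul, h0]
    simp [hU]
  have hlog : Integrable (fun x => f x ^ 2 * Real.log (f x ^ 2)) μ :=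
    hfT.sq.integrable_comp Real.continuous_mul_log
  have hpt : ∀ x, e ^ 2 * u x ^ 2 + f x ^ 2 - 1 ≤ f x ^ 2 * Real.log (f x ^ 2) := fun x => by
    have h1 : 1 - (f x)⁻¹ ≤ Real.log (f x) := by
      have := Real.log_le_sub_one_of_pos (inv_pos.2 (hfpos x))
      rw [Real.log_inv] at this
      linarith
    have h2 := mul_le_mul_of_nonneg_left h1 (by positivity : 0 ≤ 2 * f x ^ 2)
    rw [Real.log_pow]
    have e3 : 2 * f x ^ 2 * (1 - (f x)⁻¹) = 2 * f x ^ 2 - 2 * f x := by
      field_simp [(hfpos x).ne']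
    have e4 : e ^ 2 * u x ^ 2 = (f x - 1) ^ 2 := by simp only [hf]; ring
    rw [e3] at h2
    push_cast
    linarith
  have hlow : 2 * (e ^ 2 * U) ≤ ∫ x, f x ^ 2 * Real.log (f x ^ 2) ∂μ := by
    have h := integral_mono (μ := μ)
      (((hu.sq.integrable.const_mul (e ^ 2)).add hfT.sq.integrable).sub (integrable_const 1))
      hlog hpt
    simp only [Pi.sub_apply, Pi.add_apply] at h
    rw [integral_sub (by exact (hu.sq.integrable.const_mul _).add hfT.sq.integrable)
        (integrable_const _),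
      integral_add (hu.sq.integrable.const_mul _) hfT.sq.integrable, integral_const_mul, hP] at h
    simp only [integral_const, probReal_univ, one_smul, ← hU] at h
    linarith
  have hplog : (1 + e ^ 2 * U) * Real.log (1 + e ^ 2 * U) ≤ (1 + e ^ 2 * U) * (e ^ 2 * U) := by
    refine mul_le_mul_of_nonneg_left ?_ (by positivity)
    have := Real.log_le_sub_one_of_pos (show 0 < 1 + e ^ 2 * U by positivity)
    linarith
  have henergy : energy μ f = e ^ 2 * energy μ u := by
    simp only [energy, gradSq]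
    rw [← integral_const_mul]
    congr 1
    funext x
    rw [Finset.mul_sum]
    exact Finset.sum_congr rfl fun i _ => by
      rw [hf, pd_const_add_mul hu.differentiable]
      ring
  have h := hC f hfT
  rw [ent, hP, henergy] at h
  have h2 : e ^ 2 * U * (1 / 2) ≤ C * (e ^ 2 * energy μ u) := by
    have := mul_le_mul_of_nonneg_left hUB (by positivity : 0 ≤ e ^ 2 * U)
    linarith
  refine le_of_mul_le_mul_left ?_ (pow_pos he 2)
  linarith

/-- The pointwise step of Rothaus' lemma. -/
theorem rothaus_pointwise {x m V : ℝ} (hV : 0 < V) :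
    x ^ 2 * Real.log (x ^ 2) - Real.log (m ^ 2 + V) * x ^ 2 - x ^ 2 + (m ^ 2 + V)
      ≤ 9 / 4 * ((x - m) ^ 2 * Real.log ((x - m) ^ 2) - Real.log V * (x - m) ^ 2)
        + 35 * (x - m) ^ 2 + 35 * V := by
  set T := Real.sqrt (m ^ 2 + V) with hT
  have hT2 : T ^ 2 = m ^ 2 + V := Real.sq_sqrt (by positivity)
  have hT0 : 0 < T := Real.sqrt_pos.2 (by positivity)
  have hmT : |m| ≤ T := Real.abs_le_sqrt (by linarith)
  set A := |x - m| with hA
  have hA2 : A ^ 2 = (x - m) ^ 2 := sq_abs _
  set X := |x| with hX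
  have hX2 : X ^ 2 = x ^ 2 := sq_abs _
  have hXA : X ≤ A + |m| := by
    have := abs_add_le (x - m) m
    rw [sub_add_cancel] at this
    exact this
  have hq : -V ≤ A ^ 2 * Real.log (A ^ 2) - Real.log V * A ^ 2 := by
    have h := fenchel_mul_log (t := Real.log V) (sq_nonneg A)
    rw [Real.exp_log hV] at h
    have := sq_nonneg A
    linarith
  rw [← hT2, ← hA2, ← hX2]
  rcases le_or_gt X (3 * T) with h3 | h3
  · have hTm : T ≤ |m| + Real.sqrt V := by
      refine Real.sqrt_le_iff.2 ⟨by positivity, ?_⟩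
      rw [add_sq, sq_abs, Real.sq_sqrt hV.le]
      have : 0 ≤ 2 * |m| * Real.sqrt V := by positivity
      linarith
    have hmXA : |m| ≤ X + A := by
      have := abs_sub x (x - m)
      rw [sub_sub_cancel] at this
      exact this
    have hd : (X - T) ^ 2 ≤ 2 * A ^ 2 + 2 * V := by
      have h1 : |X - T| ≤ A + Real.sqrt V := by
        have := Real.sqrt_nonneg V
        rw [abs_le]
        constructor <;> linarith
      have h2 := pow_le_pow_left₀ (abs_nonneg _) h1 2
      rw [sq_abs] at h2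
      have h4 := two_mul_le_add_sq A (Real.sqrt V)
      rw [Real.sq_sqrt hV.le] at h4
      rw [add_sq, Real.sq_sqrt hV.le] at h2
      linarith
    have hlog : X ^ 2 * Real.log (X ^ 2) - Real.log (T ^ 2) * X ^ 2 - X ^ 2 + T ^ 2
        ≤ 16 * (X - T) ^ 2 := by
      rcases eq_or_lt_of_le (abs_nonneg x) with h0 | h0
      · rw [← hX] at h0
        rw [← h0]
        have := sq_nonneg T
        simp only [zero_pow, ne_eq, OfNat.ofNat_ne_zero, not_false_eq_true, zero_mul, mul_zero,
          zero_sub, sub_zero, neg_sq, zero_add, neg_zero]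
        linarith
      · have hl := Real.log_le_sub_one_of_pos (div_pos (pow_pos h0 2) (pow_pos hT0 2))
        rw [Real.log_div (pow_pos h0 2).ne' (pow_pos hT0 2).ne'] at hl
        have hl2 := mul_le_mul_of_nonneg_left hl (sq_nonneg X)
        have e : X ^ 2 * (X ^ 2 / T ^ 2 - 1) - X ^ 2 + T ^ 2
            = (X - T) ^ 2 * ((X + T) / T) ^ 2 := by
          field_simp
          ring
        have h4 : ((X + T) / T) ^ 2 ≤ 4 ^ 2 :=
          pow_le_pow_left₀ (by positivity) ((div_le_iff₀ hT0).2 (by linarith)) 2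
        have h5 := mul_le_mul_of_nonneg_left h4 (sq_nonneg (X - T))
        linarith
    linarith [sq_nonneg A]
  · have hAX : 2 * X ≤ 3 * A := by linarith
    have hX0 : 0 < X := lt_trans (by positivity) h3
    have hA0 : 0 < A := by linarith
    have hX94 : X ^ 2 ≤ 9 / 4 * A ^ 2 := by
      have := pow_le_pow_left₀ (by positivity) hAX 2
      linarith
    have hVT : V ≤ T ^ 2 := by rw [hT2]; linarith [sq_nonneg m]
    have hTX : T ^ 2 ≤ X ^ 2 := pow_le_pow_left₀ hT0.le (by linarith) 2
    have hl : Real.log (X ^ 2) - Real.log (T ^ 2) ≤ Real.log (A ^ 2) - Real.log V + 5 / 4 := by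
      have h1 := Real.log_le_log (pow_pos hX0 2) hX94
      rw [Real.log_mul (by norm_num) (pow_pos hA0 2).ne'] at h1
      have h2 := Real.log_le_sub_one_of_pos (show (0 : ℝ) < 9 / 4 by norm_num)
      have h3 := Real.log_le_log hV hVT
      linarith
    have hl0 : 0 ≤ Real.log (X ^ 2) - Real.log (T ^ 2) :=
      sub_nonneg.2 (Real.log_le_log (pow_pos hT0 2) hTX)
    have h5 := mul_le_mul hX94 hl hl0 (by positivity)
    linarith

/-- Rothaus' lemma, with crude constants. -/
theorem rothaus {μ : Measure (Fin n → ℝ)} [IsProbabilityMeasure μ] {f : (Fin n → ℝ) → ℝ}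
    (hf : Tame f) : ent μ (fun x => f x ^ 2)
      ≤ 9 / 4 * ent μ (fun x => (f x - ∫ y, f y ∂μ) ^ 2)
        + 70 * ∫ x, (f x - ∫ y, f y ∂μ) ^ 2 ∂μ := by
  set m := ∫ y, f y ∂μ with hm
  have ha : Tame fun x => f x - m := hf.sub_const m
  set V := ∫ x, (f x - m) ^ 2 ∂μ with hV
  have hP : ∫ x, f x ^ 2 ∂μ = m ^ 2 + V := by
    have e : (fun x => (f x - m) ^ 2) = fun x => f x ^ 2 - 2 * m * f x + m ^ 2 :=
      funext fun x => by ring
    rw [hV, e, integral_add (by exact hf.sq.integrable.sub (hf.integrable.const_mul _))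
        (integrable_const _), integral_sub hf.sq.integrable (hf.integrable.const_mul _),
      integral_const_mul, ← hm]
    simp
    ring
  have hl1 : Integrable (fun x => f x ^ 2 * Real.log (f x ^ 2)) μ :=
    hf.sq.integrable_comp Real.continuous_mul_log
  have hl2 : Integrable (fun x => (f x - m) ^ 2 * Real.log ((f x - m) ^ 2)) μ :=
    ha.sq.integrable_comp Real.continuous_mul_log
  have hV0 : 0 ≤ V := integral_nonneg fun x => sq_nonneg _
  rcases hV0.eq_or_lt' with h0 | hpos
  · have hz : (fun x => (f x - m) ^ 2) =ᵐ[μ] 0 :=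
      (integral_eq_zero_iff_of_nonneg (fun x => sq_nonneg _) ha.sq.integrable).1 h0
    have h1 : ∫ x, f x ^ 2 * Real.log (f x ^ 2) ∂μ = m ^ 2 * Real.log (m ^ 2) := by
      rw [integral_congr_ae (g := fun _ => m ^ 2 * Real.log (m ^ 2)) (hz.mono fun x hx => ?_)]
      · simp
      · simp only [Pi.zero_apply] at hx
        rw [sq_eq_zero_iff, sub_eq_zero] at hx
        simp [hx]
    have h2 : ∫ x, (f x - m) ^ 2 * Real.log ((f x - m) ^ 2) ∂μ = 0 :=
      integral_eq_zero_of_ae (hz.mono fun x hx => by simp [Pi.zero_apply] at hx; simp [hx])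
    rw [ent, ent, h1, h2, hP, ← hV, h0, add_zero]
    simp
  · rw [ent_eq_integral hf.sq.integrable hl1, hP]
    have hint : Integrable (fun x => f x ^ 2 * Real.log (f x ^ 2) - Real.log (m ^ 2 + V) * f x ^ 2
        - f x ^ 2 + (m ^ 2 + V)) μ :=
      ((hl1.sub (hf.sq.integrable.const_mul _)).sub hf.sq.integrable).add (integrable_const _)
    have h := integral_mono (μ := μ) hint
      (((hl2.sub (ha.sq.integrable.const_mul _)).const_mul (9 / 4)).add
        (ha.sq.integrable.const_mul 35) |>.add (integrable_const (35 * V)))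
      fun x => rothaus_pointwise (x := f x) (m := m) hpos
    simp only [Pi.add_apply, Pi.sub_apply] at h ⊢
    refine h.trans (le_of_eq ?_)
    have hA1 : Integrable (fun x => 9 / 4 * ((f x - m) ^ 2 * Real.log ((f x - m) ^ 2)
        - Real.log V * (f x - m) ^ 2)) μ :=
      (hl2.sub (ha.sq.integrable.const_mul _)).const_mul _
    have hA2 : Integrable (fun x => 9 / 4 * ((f x - m) ^ 2 * Real.log ((f x - m) ^ 2)
        - Real.log V * (f x - m) ^ 2) + 35 * (f x - m) ^ 2) μ :=
      hA1.add (ha.sq.integrable.const_mul _)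
    rw [integral_add hA2 (integrable_const _), integral_add hA1 (ha.sq.integrable.const_mul _),
      integral_const_mul, integral_const_mul, integral_sub hl2 (ha.sq.integrable.const_mul _),
      integral_const_mul, ← hV, ent, ← hV]
    simp
    ring

/-- Spectral gap from the gap on a cube and the smallness of its complement. -/
theorem poincare_unconditional (hρ : GoodDensity ρ) {R L M : ℝ} (hR : 0 < R)
    (hL : ∫⁻ x, ENNReal.ofReal (Real.exp (10 / R ^ 2 * excess R x)) ∂law ρ
      ≤ ENNReal.ofReal (Real.exp L))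
    (hM1 : 1 ≤ M) (hM : ∀ t, |deriv Real.smoothTransition t| ≤ M)
    (hA : law ρ {x | ∃ i, R < |x i|} ≤ ENNReal.ofReal (Real.exp (-(2 * L + 1152 * M ^ 2))))
    (hA' : law ρ {x | ∃ i, R < |x i|} ≤ ENNReal.ofReal (1 / 2))
    {f : (Fin n → ℝ) → ℝ} (hf : Tame f) :
    ∫ x, (f x - ∫ y, f y ∂law ρ) ^ 2 ∂law ρ ≤ 12000 * R ^ 2 * energy (law ρ) f := by
  haveI := isProbability_law hρ
  have hr : (0 : ℝ) < 3 * R := by positivity
  have hm : 1 / 2 ≤ (law ρ).real (cube (3 * R)) := by
    have h1 : (law ρ).real (cube R)ᶜ ≤ 1 / 2 := by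
      rw [compl_cube]
      exact ENNReal.toReal_le_of_le_ofReal (by norm_num) hA'
    rw [measureReal_compl (measurableSet_cube R), probReal_univ] at h1
    have h2 : (law ρ).real (cube R) ≤ (law ρ).real (cube (3 * R)) :=
      measureReal_mono (fun x hx i => (hx i).trans (by linarith)) (measure_ne_top _ _)
    linarith
  have hm0 : 0 < (law ρ).real (cube (3 * R)) := by linarith
  have hρ' := good_cubeDensity hρ hm0
  haveI := isProbability_law hρ'
  set c := ∫ y, f y ∂law (cubeDensity ρ (3 * R)) with hc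
  have ha : Tame fun x => f x - c := hf.sub_const c
  have hga : gradSq (fun x => f x - c) = gradSq f := by
    funext x
    simp only [gradSq, pd, fderiv_sub_const]
  set I := energy (law ρ) f with hI
  have hI0 : 0 ≤ I := integral_nonneg fun x => Finset.sum_nonneg fun i _ => sq_nonneg _
  have hcube : ∫ x in cube (3 * R), (f x - c) ^ 2 ∂law ρ ≤ 2592 * R ^ 2 * I := by
    have hmean : ∫ x, (f x - c) ∂law (cubeDensity ρ (3 * R)) = 0 := by
      rw [integral_sub hf.integrable (integrable_const c), ← hc]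
      simp
    have h := poincare_of_lsi (C := 144 * (3 * R) ^ 2)
      (fun g hg => lsi_cube hρ hr hm0 hg) ha hmean
    simp only [energy, hga] at h
    rw [integral_cubeDensity hρ hm0, integral_cubeDensity hρ hm0, ← mul_assoc (2 * _),
      mul_comm (2 * _) ((law ρ).real (cube (3 * R)))⁻¹, mul_assoc] at h
    have h' := le_of_mul_le_mul_left h (inv_pos.2 hm0)
    have h3 : ∫ x in cube (3 * R), gradSq f x ∂law ρ ≤ I :=
      setIntegral_le_integral hf.integrable_gradSq
        (Eventually.of_forall fun x => Finset.sum_nonneg fun i _ => sq_nonneg _)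
    have h4 := mul_le_mul_of_nonneg_left h3 (by positivity : 0 ≤ 2 * (144 * (3 * R) ^ 2))
    linarith
  set W := ∫ x, (f x - c) ^ 2 ∂law ρ with hW
  have hW0 : 0 ≤ W := integral_nonneg fun x => sq_nonneg _
  set u₁ : (Fin n → ℝ) → ℝ := fun x => (f x - c) * cutoff R x with hu₁
  set u₂ : (Fin n → ℝ) → ℝ := fun x => (f x - c) - u₁ x with hu₂
  have hu₁T : Tame u₁ := ha.mul_compact (contDiff_cutoff R) (compact_cutoff hR)
  have hu₂T : Tame u₂ := ha.sub hu₁T
  have h1 : ∫ x, u₁ x ^ 2 ∂law ρ ≤ 2592 * R ^ 2 * I := by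
    refine le_trans ?_ hcube
    rw [← integral_indicator (measurableSet_cube _)]
    refine integral_mono hu₁T.sq.integrable (ha.sq.integrable.indicator (measurableSet_cube _))
      fun x => ?_
    by_cases hx : x ∈ cube (3 * R)
    · simp only [Set.indicator_of_mem hx, hu₁, mul_pow]
      exact mul_le_of_le_one_right (sq_nonneg _)
        (pow_le_one₀ (cutoff_nonneg R x) (cutoff_le_one R x))
    · simp [Set.indicator_of_notMem hx, hu₁, cutoff_eq_zero hR hx]
  have hsupp : ∀ x ∉ {x : Fin n → ℝ | ∃ i, R < |x i|}, u₂ x ^ 2 = 0 := fun x hx => by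
    have : x ∈ cube R := by simpa [cube] using hx
    simp [hu₂, hu₁, cutoff_eq_one hR this]
  have hgrad : ∀ x, gradSq u₂ x ≤ 2 * gradSq f x + 2 * (M / R) ^ 2 * (f x - c) ^ 2 := fun x => by
    have hd1 := ha.differentiable x
    have hd2 := (contDiff_cutoff (n := n) R).differentiable natCast_ne_zero_top x
    have hpd : ∀ i, pd i u₂ x
        = (1 - cutoff R x) * pd i f x - (f x - c) * pd i (cutoff R) x := fun i => by
      simp only [pd, hu₂, hu₁]
      rw [fderiv_fun_sub hd1 (hd1.fun_mul hd2), fderiv_fun_mul hd1 hd2, fderiv_sub_const]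
      simp [smul_eq_mul]
      ring
    have hη0 := cutoff_nonneg R x
    have hη1 := cutoff_le_one R x
    calc gradSq u₂ x
        ≤ ∑ i, (2 * pd i f x ^ 2 + 2 * (f x - c) ^ 2 * pd i (cutoff R) x ^ 2) := by
          refine Finset.sum_le_sum fun i _ => ?_
          rw [hpd]
          have h2 : (1 - cutoff R x) ^ 2 ≤ 1 := pow_le_one₀ (by linarith) (by linarith)
          have h3 := mul_le_mul_of_nonneg_right h2 (sq_nonneg (pd i f x))
          have h4 := two_mul_le_add_sq ((1 - cutoff R x) * pd i f x)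
            (-((f x - c) * pd i (cutoff R) x))
          linarith
      _ = 2 * gradSq f x + 2 * (f x - c) ^ 2 * gradSq (cutoff R) x := by
          simp [gradSq, Finset.sum_add_distrib, Finset.mul_sum]
      _ ≤ _ := by
          have := mul_le_mul_of_nonneg_left (gradSq_cutoff_le hR hM x)
            (by positivity : 0 ≤ 2 * (f x - c) ^ 2)
          linarith
  have hE2 : energy (law ρ) u₂ ≤ 2 * I + 2 * (M / R) ^ 2 * W := by
    rw [hI, hW, energy, energy, ← integral_const_mul, ← integral_const_mul,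
      ← integral_add (hf.integrable_gradSq.const_mul _) (ha.sq.integrable.const_mul _)]
    exact integral_mono hu₂T.integrable_gradSq
      ((hf.integrable_gradSq.const_mul _).add (ha.sq.integrable.const_mul _)) hgrad
  have hmA : MeasurableSet {x : Fin n → ℝ | ∃ i, R < |x i|} := by
    rw [← compl_cube]
    exact (measurableSet_cube R).compl
  have hs := support_le_ent hmA (fun x => sq_nonneg (u₂ x)) hsupp hu₂T.sq.integrable
    (hu₂T.sq.integrable_comp Real.continuous_mul_log) hA
  have hd := defective hρ hR hL hu₂T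
  set S := ∫ x, u₂ x ^ 2 ∂law ρ with hS
  have hS0 : 0 ≤ S := integral_nonneg fun x => sq_nonneg _
  have hRR : R ^ 2 * (M / R) ^ 2 = M ^ 2 := by field_simp
  have h2 : 1152 * M ^ 2 * S ≤ 288 * R ^ 2 * I + 288 * M ^ 2 * W := by
    have hE' := mul_le_mul_of_nonneg_left hE2 (by positivity : 0 ≤ 144 * R ^ 2)
    have e : 144 * R ^ 2 * (2 * I + 2 * (M / R) ^ 2 * W)
        = 288 * R ^ 2 * I + 288 * (R ^ 2 * (M / R) ^ 2) * W := by ring
    rw [e, hRR] at hE'
    linarith
  have h2' : S ≤ R ^ 2 * I / 4 + W / 4 := by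
    have hM2 : 1 ≤ M ^ 2 := one_le_pow₀ hM1
    have h3 := mul_le_mul_of_nonneg_right hM2 (by positivity : 0 ≤ 288 * R ^ 2 * I)
    refine le_of_mul_le_mul_left ?_ (by positivity : 0 < 1152 * M ^ 2)
    linarith
  have hsplit : W ≤ 2 * ∫ x, u₁ x ^ 2 ∂law ρ + 2 * S := by
    rw [hW, hS, ← integral_const_mul, ← integral_const_mul,
      ← integral_add (hu₁T.sq.integrable.const_mul _) (hu₂T.sq.integrable.const_mul _)]
    refine integral_mono ha.sq.integrable
      ((hu₁T.sq.integrable.const_mul _).add (hu₂T.sq.integrable.const_mul _)) fun x => ?_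
    show (f x - c) ^ 2 ≤ _
    have := two_mul_le_add_sq (u₁ x) (u₂ x)
    simp only [hu₂, Pi.add_apply] at this ⊢
    linarith
  have hmin : ∫ x, (f x - ∫ y, f y ∂law ρ) ^ 2 ∂law ρ ≤ W := by
    set m := ∫ y, f y ∂law ρ with hmdef
    have hb : Tame fun x => f x - m := hf.sub_const m
    have e : (fun x => (f x - c) ^ 2)
        = fun x => (f x - m) ^ 2 + 2 * (m - c) * (f x - m) + (m - c) ^ 2 := funext fun x => by ring
    rw [hW, e, integral_add (by exact hb.sq.integrable.add (hb.integrable.const_mul _))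
        (integrable_const _), integral_add hb.sq.integrable (hb.integrable.const_mul _),
      integral_const_mul, integral_sub hf.integrable (integrable_const m), ← hmdef]
    simp
    positivity
  have : 0 ≤ R ^ 2 * I := by positivity
  linarith

/-- The tight inequality, under the tail bounds. -/
theorem lsi_of_tail (hρ : GoodDensity ρ) {R L M : ℝ} (hR : 0 < R) (hL1 : L ≤ 1)
    (hL : ∫⁻ x, ENNReal.ofReal (Real.exp (10 / R ^ 2 * excess R x)) ∂law ρ
      ≤ ENNReal.ofReal (Real.exp L))
    (hM1 : 1 ≤ M) (hM : ∀ t, |deriv Real.smoothTransition t| ≤ M)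
    (hA : law ρ {x | ∃ i, R < |x i|} ≤ ENNReal.ofReal (Real.exp (-(2 * L + 1152 * M ^ 2))))
    (hA' : law ρ {x | ∃ i, R < |x i|} ≤ ENNReal.ofReal (1 / 2))
    {f : (Fin n → ℝ) → ℝ} (hf : Tame f) :
    ent (law ρ) (fun x => f x ^ 2) ≤ 10 ^ 6 * R ^ 2 * energy (law ρ) f := by
  haveI := isProbability_law hρ
  set m := ∫ y, f y ∂law ρ with hm
  have ha : Tame fun x => f x - m := hf.sub_const m
  have hga : energy (law ρ) (fun x => f x - m) = energy (law ρ) f := by
    simp only [energy, gradSq, pd, fderiv_sub_const]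
  have h1 := rothaus (μ := law ρ) hf
  have h2 := defective hρ hR hL ha
  have h3 := poincare_unconditional hρ hR hL hM1 hM hA hA' hf
  rw [hga] at h2
  rw [← hm] at h1 h3
  have hI0 : 0 ≤ energy (law ρ) f :=
    integral_nonneg fun x => Finset.sum_nonneg fun i _ => sq_nonneg _
  have hV0 : 0 ≤ ∫ x, (f x - m) ^ 2 ∂law ρ := integral_nonneg fun x => sq_nonneg _
  have h4 := mul_le_mul_of_nonneg_right hL1 hV0
  have : 0 ≤ R ^ 2 * energy (law ρ) f := by positivity
  linarith

end

end Vale.Agent.P245
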